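import Mathlib

/-! Basic operator calculus on `N` qubits for row 344: product operators, zero projectors,
weight projectors, local operators and circuits in normal form. -/

set_option autoImplicit false

open scoped Matrix.Norms.L2Operator
open Matrix

namespace Crest.Agent.R344

abbrev Str (N : ℕ) : Type := Fin N → Bool
abbrev Mat (N : ℕ) : Type := Matrix (Str N) (Str N) ℂ
abbrev M2 : Type := Matrix Bool Bool ℂ

variable {N : ℕ}

/-- Tensor product of one-qubit matrices. -/
def prodOp (v : Fin N → M2) : Mat N := Matrix.of fun y y' => ∏ j, v j (y j) (y' j)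

theorem prodOp_apply (v : Fin N → M2) (y y' : Str N) :
    prodOp v y y' = ∏ j, v j (y j) (y' j) := rfl

theorem prodOp_mul (u v : Fin N → M2) : prodOp u * prodOp v = prodOp (fun j => u j * v j) := by
  ext y y'
  simp only [Matrix.mul_apply, prodOp_apply]
  rw [Fintype.prod_sum]
  simp only [Finset.prod_mul_distrib]

theorem prodOp_diagonal (d : Fin N → Bool → ℂ) :
    prodOp (fun j => diagonal (d j)) = diagonal (fun y : Str N => ∏ j, d j (y j)) := by
  ext y y'
  rw [prodOp_apply]
  by_cases h : y = y'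
  · subst h; simp
  · rw [diagonal_apply_ne _ h]
    obtain ⟨j, hj⟩ := Function.ne_iff.mp h
    exact Finset.prod_eq_zero (Finset.mem_univ j) (diagonal_apply_ne _ hj)

theorem prodOp_one : prodOp (fun _ : Fin N => (1 : M2)) = 1 := by
  have := prodOp_diagonal (N := N) (fun _ _ => 1)
  simpa using this

theorem star_prodOp (v : Fin N → M2) : star (prodOp v) = prodOp (fun j => star (v j)) := by
  ext y y'
  simp [prodOp_apply, Matrix.star_apply]

theorem prodOp_commute {u v : Fin N → M2} (h : ∀ j, Commute (u j) (v j)) :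
    Commute (prodOp u) (prodOp v) := by
  unfold Commute SemiconjBy
  rw [prodOp_mul, prodOp_mul]
  congr 1
  funext j
  exact h j

/-- Product unitaries. -/
def IsPU (U : Mat N) : Prop := ∃ v : Fin N → M2, (∀ j, v j ∈ unitary M2) ∧ U = prodOp v

theorem prodOp_unitary {v : Fin N → M2} (h : ∀ j, v j ∈ unitary M2) :
    prodOp v ∈ unitary (Mat N) := by
  rw [Unitary.mem_iff, star_prodOp, prodOp_mul, prodOp_mul]
  constructor
  · rw [← prodOp_one]; congr 1; funext j; exact (h j).1
  · rw [← prodOp_one]; congr 1; funext j; exact (h j).2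

theorem IsPU.unitary {U : Mat N} (h : IsPU U) : U ∈ unitary (Mat N) := by
  obtain ⟨v, hv, rfl⟩ := h
  exact prodOp_unitary hv

theorem IsPU.one : IsPU (1 : Mat N) := ⟨fun _ => 1, fun _ => one_mem _, prodOp_one.symm⟩

theorem IsPU.mul {U V : Mat N} (hU : IsPU U) (hV : IsPU V) : IsPU (U * V) := by
  obtain ⟨u, hu, rfl⟩ := hU
  obtain ⟨v, hv, rfl⟩ := hV
  exact ⟨fun j => u j * v j, fun j => mul_mem (hu j) (hv j), prodOp_mul u v⟩

theorem IsPU.star {U : Mat N} (hU : IsPU U) : IsPU (star U) := by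
  obtain ⟨u, hu, rfl⟩ := hU
  exact ⟨fun j => Star.star (u j), fun j => Unitary.star_mem (hu j), star_prodOp u⟩

theorem norm_unitary_le {U : Mat N} (h : U ∈ unitary (Mat N)) : ‖U‖ ≤ 1 :=
  (CStarRing.norm_of_mem_unitary h).le

theorem norm_diagonal_le {f : Str N → ℂ} {c : ℝ} (hc : 0 ≤ c) (h : ∀ y, ‖f y‖ ≤ c) :
    ‖(diagonal f : Mat N)‖ ≤ c := by
  rw [Matrix.l2_opNorm_diagonal]
  exact (pi_norm_le_iff_of_nonneg hc).2 h

/-- Weight of a string on a set of wires. -/
def wt (Q : Finset (Fin N)) (y : Str N) : ℕ := (Q.filter fun j => y j = true).card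

theorem wt_le (Q : Finset (Fin N)) (y : Str N) : wt Q y ≤ N := by
  unfold wt
  simpa using Finset.card_le_univ (Q.filter fun j => y j = true)

theorem wt_eq_zero {Q : Finset (Fin N)} {y : Str N} : wt Q y = 0 ↔ ∀ j ∈ Q, y j = false := by
  simp [wt]

/-- Projector onto the strings vanishing on `Q`. -/
def P (Q : Finset (Fin N)) : Mat N := diagonal fun y => if ∀ j ∈ Q, y j = false then 1 else 0

/-- Projector onto the strings of weight more than `T` on `Q`. -/
noncomputable def G (Q : Finset (Fin N)) (T : ℝ) : Mat N :=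
  diagonal fun y => if T < (wt Q y : ℝ) then 1 else 0

theorem norm_P_le (Q : Finset (Fin N)) : ‖P Q‖ ≤ 1 :=
  norm_diagonal_le zero_le_one fun y => by split_ifs <;> simp

theorem norm_G_le (Q : Finset (Fin N)) (T : ℝ) : ‖G Q T‖ ≤ 1 :=
  norm_diagonal_le zero_le_one fun y => by split_ifs <;> simp

theorem P_mul_P (A B : Finset (Fin N)) : P A * P B = P (A ∪ B) := by
  unfold P
  rw [diagonal_mul_diagonal]
  congr 1
  funext y
  by_cases hA : ∀ j ∈ A, y j = false <;> by_cases hB : ∀ j ∈ B, y j = false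
  · rw [if_pos hA, if_pos hB, if_pos, one_mul]
    intro j hj
    rcases Finset.mem_union.1 hj with h | h
    exacts [hA j h, hB j h]
  · rw [if_neg hB, mul_zero, if_neg]
    exact fun h => hB fun j hj => h j (Finset.mem_union_right _ hj)
  · rw [if_neg hA, zero_mul, if_neg]
    exact fun h => hA fun j hj => h j (Finset.mem_union_left _ hj)
  · rw [if_neg hA, zero_mul, if_neg]
    exact fun h => hA fun j hj => h j (Finset.mem_union_left _ hj)

theorem P_mul_self (A : Finset (Fin N)) : P A * P A = P A := by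
  rw [P_mul_P, Finset.union_self]

theorem P_empty : P (∅ : Finset (Fin N)) = 1 := by
  simp [P]

theorem star_P (A : Finset (Fin N)) : star (P A) = P A := by
  unfold P
  rw [Matrix.star_eq_conjTranspose, diagonal_conjTranspose]
  congr 1
  funext y
  simp only [Pi.star_apply]
  split_ifs <;> simp

theorem P_commute (A B : Finset (Fin N)) : Commute (P A) (P B) := by
  unfold Commute SemiconjBy
  rw [P_mul_P, P_mul_P, Finset.union_comm]

/-- The one-qubit factors of `P Q`. -/
def pv (Q : Finset (Fin N)) (j : Fin N) : M2 :=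
  diagonal fun b => if j ∈ Q ∧ b = true then 0 else 1

theorem pv_of_notMem {Q : Finset (Fin N)} {j : Fin N} (h : j ∉ Q) : pv Q j = 1 := by
  simp [pv, h]

theorem P_eq_prodOp (Q : Finset (Fin N)) : P Q = prodOp (pv Q) := by
  unfold pv
  rw [prodOp_diagonal, P]
  congr 1
  funext y
  by_cases h : ∀ j ∈ Q, y j = false
  · rw [if_pos h]
    symm
    apply Finset.prod_eq_one
    intro j _
    rw [if_neg]
    rintro ⟨h1, h2⟩
    simp [h j h1] at h2
  · rw [if_neg h]
    push Not at h
    obtain ⟨j, hj, hy⟩ := h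
    symm
    apply Finset.prod_eq_zero (Finset.mem_univ j)
    rw [if_pos ⟨hj, by simpa using hy⟩]

theorem G_mono (Q : Finset (Fin N)) {T T' : ℝ} (h : T ≤ T') : G Q T' = G Q T' * G Q T := by
  unfold G
  rw [diagonal_mul_diagonal]
  congr 1
  funext y
  by_cases h1 : T' < (wt Q y : ℝ)
  · rw [if_pos h1, if_pos (lt_of_le_of_lt h h1), one_mul]
  · rw [if_neg h1, zero_mul]

theorem norm_G_mul_mono (Q : Finset (Fin N)) {T T' : ℝ} (h : T ≤ T') (X Y : Mat N) :
    ‖G Q T' * X * Y‖ ≤ ‖G Q T * X * Y‖ := by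
  rw [G_mono Q h, mul_assoc (G Q T'), mul_assoc (G Q T')]
  refine (norm_mul_le _ _).trans ?_
  exact mul_le_of_le_one_left (norm_nonneg _) (norm_G_le _ _)

theorem G_eq_zero (Q : Finset (Fin N)) {T : ℝ} (h : (N : ℝ) ≤ T) : G Q T = 0 := by
  unfold G
  rw [← diagonal_zero]
  congr 1
  funext y
  rw [if_neg]
  have : (wt Q y : ℝ) ≤ N := by exact_mod_cast wt_le Q y
  linarith

theorem G_mul_P_sdiff (Q S : Finset (Fin N)) {T : ℝ} (h : (S.card : ℝ) ≤ T) :
    G Q T * P (Q \ S) = 0 := by
  unfold G P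
  rw [diagonal_mul_diagonal, ← diagonal_zero]
  congr 1
  funext y
  by_cases h1 : ∀ j ∈ Q \ S, y j = false
  · rw [if_neg, zero_mul]
    have : wt Q y ≤ S.card := by
      apply Finset.card_le_card
      intro j hj
      rw [Finset.mem_filter] at hj
      by_contra hS
      have := h1 j (Finset.mem_sdiff.2 ⟨hj.1, hS⟩)
      simp [this] at hj
    have : (wt Q y : ℝ) ≤ S.card := by exact_mod_cast this
    linarith
  · rw [if_neg h1, mul_zero]

/-- `b` acts only on the wires in `S`. -/
def Loc (S : Finset (Fin N)) (b : Mat N) : Prop :=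
  ∀ v : Fin N → M2, (∀ j ∈ S, v j = 1) → Commute (prodOp v) b

theorem Loc.mono {S S' : Finset (Fin N)} (h : S ⊆ S') {b : Mat N} (hb : Loc S b) : Loc S' b :=
  fun v hv => hb v fun j hj => hv j (h hj)

theorem Loc.mul {S : Finset (Fin N)} {a b : Mat N} (ha : Loc S a) (hb : Loc S b) :
    Loc S (a * b) := fun v hv => (ha v hv).mul_right (hb v hv)

theorem Loc.one (S : Finset (Fin N)) : Loc S (1 : Mat N) := fun _ _ => Commute.one_right _

theorem loc_prodOp {S : Finset (Fin N)} {u : Fin N → M2} (hu : ∀ j, j ∉ S → u j = 1) :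
    Loc S (prodOp u) := by
  intro v hv
  apply prodOp_commute
  intro j
  by_cases hj : j ∈ S
  · rw [hv j hj]; exact Commute.one_left _
  · rw [hu j hj]; exact Commute.one_right _

theorem loc_P {S A : Finset (Fin N)} (h : A ⊆ S) : Loc S (P A) := by
  rw [P_eq_prodOp]
  exact loc_prodOp fun j hj => pv_of_notMem fun h' => hj (h h')

theorem Loc.commute_P {S A : Finset (Fin N)} {b : Mat N} (hb : Loc S b) (h : Disjoint A S) :
    Commute (P A) b := by
  rw [P_eq_prodOp]
  exact hb _ fun j hj => pv_of_notMem fun h' => Finset.disjoint_left.1 h h' hj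

theorem Loc.conj {S : Finset (Fin N)} {b U : Mat N} (hb : Loc S b) (hU : IsPU U) :
    Loc S (star U * b * U) := by
  obtain ⟨u, hu, rfl⟩ := hU
  intro v hv
  have h1 := hb (fun j => u j * v j * star (u j)) (fun j hj => by
    simp only [hv j hj, mul_one]; exact (hu j).2)
  have e1 : prodOp v * star (prodOp u) =
      star (prodOp u) * prodOp (fun j => u j * v j * star (u j)) := by
    rw [star_prodOp, prodOp_mul, prodOp_mul]
    congr 1
    funext j
    rw [← mul_assoc, ← mul_assoc, (hu j).1, one_mul]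
  have e2 : prodOp (fun j => u j * v j * star (u j)) * prodOp u = prodOp u * prodOp v := by
    rw [prodOp_mul, prodOp_mul]
    congr 1
    funext j
    rw [mul_assoc, (hu j).1, mul_one]
  unfold Commute SemiconjBy at h1 ⊢
  calc prodOp v * (star (prodOp u) * b * prodOp u)
      = (prodOp v * star (prodOp u)) * b * prodOp u := by simp only [mul_assoc]
    _ = star (prodOp u) * (prodOp (fun j => u j * v j * star (u j)) * b) * prodOp u := by
        rw [e1]; simp only [mul_assoc]
    _ = star (prodOp u) * b * (prodOp (fun j => u j * v j * star (u j)) * prodOp u) := by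
        rw [h1]; simp only [mul_assoc]
    _ = star (prodOp u) * b * prodOp u * prodOp v := by rw [e2]; simp only [mul_assoc]

theorem norm_conj_le {U b : Mat N} (hU : U ∈ unitary (Mat N)) : ‖star U * b * U‖ ≤ ‖b‖ := by
  rw [CStarRing.norm_mul_mem_unitary _ hU, CStarRing.norm_mem_unitary_mul _ (Unitary.star_mem hU)]

/-- Contractions acting on at most `l` wires. -/
def Small (l : ℕ) (b : Mat N) : Prop := ∃ S : Finset (Fin N), S.card ≤ l ∧ Loc S b ∧ ‖b‖ ≤ 1

theorem Small.mono {l l' : ℕ} (h : l ≤ l') {b : Mat N} (hb : Small l b) : Small l' b := by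
  obtain ⟨S, h1, h2⟩ := hb
  exact ⟨S, h1.trans h, h2⟩

theorem Small.mul {l l' : ℕ} {a b : Mat N} (ha : Small l a) (hb : Small l' b) :
    Small (l + l') (a * b) := by
  obtain ⟨S, h1, h2, h3⟩ := ha
  obtain ⟨S', h1', h2', h3'⟩ := hb
  refine ⟨S ∪ S', (Finset.card_union_le _ _).trans (add_le_add h1 h1'),
    (h2.mono Finset.subset_union_left).mul (h2'.mono Finset.subset_union_right), ?_⟩
  exact (norm_mul_le _ _).trans (mul_le_one₀ h3 (norm_nonneg _) h3')

theorem Small.one : Small 0 (1 : Mat N) :=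
  ⟨∅, le_rfl, Loc.one _, norm_unitary_le (one_mem _)⟩

theorem Small.conj {l : ℕ} {b U : Mat N} (hb : Small l b) (hU : IsPU U) :
    Small l (star U * b * U) := by
  obtain ⟨S, h1, h2, h3⟩ := hb
  exact ⟨S, h1, h2.conj hU, (norm_conj_le hU.unitary).trans h3⟩

/-- Reflection about the zero string on `g`. -/
def R1 (g : Finset (Fin N)) : Mat N := 1 - (2 : ℂ) • P g

/-- A layer of reflections. -/
def RG : List (Finset (Fin N)) → Mat N
  | [] => 1
  | g :: Gs => R1 g * RG Gs

theorem star_R1 (g : Finset (Fin N)) : star (R1 g) = R1 g := by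
  simp [R1, star_P]

theorem R1_mul_self (g : Finset (Fin N)) : R1 g * R1 g = 1 := by
  simp only [R1, mul_sub, sub_mul, mul_one, one_mul, smul_mul_assoc, mul_smul_comm, P_mul_self]
  module

theorem R1_commute {g : Finset (Fin N)} {b : Mat N} (h : Commute (P g) b) : Commute (R1 g) b :=
  (Commute.one_left b).sub_left (h.smul_left _)

theorem RG_commute {Gs : List (Finset (Fin N))} {b : Mat N} (h : ∀ g ∈ Gs, Commute (P g) b) :
    Commute (RG Gs) b := by
  induction Gs with
  | nil => exact Commute.one_left b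
  | cons g Gs ih =>
    exact (R1_commute (h g List.mem_cons_self)).mul_left
      (ih fun g' hg' => h g' (List.mem_cons_of_mem _ hg'))

theorem RG_commute_R1 (Gs : List (Finset (Fin N))) (g : Finset (Fin N)) :
    Commute (RG Gs) (R1 g) :=
  RG_commute fun g' _ => (R1_commute (P_commute g g')).symm

theorem star_RG (Gs : List (Finset (Fin N))) : star (RG Gs) = RG Gs := by
  induction Gs with
  | nil => simp [RG]
  | cons g Gs ih => rw [RG, star_mul, ih, star_R1, (RG_commute_R1 Gs g).eq]

theorem RG_unitary (Gs : List (Finset (Fin N))) : RG Gs ∈ unitary (Mat N) := by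
  induction Gs with
  | nil => exact one_mem _
  | cons g Gs ih =>
    refine mul_mem ?_ ih
    rw [Unitary.mem_iff, star_R1, R1_mul_self]
    exact ⟨rfl, rfl⟩

/-- Circuits in normal form with `k` layers of reflections. -/
def Circ : ℕ → Mat N → Prop
  | 0, U => IsPU U
  | k + 1, U => ∃ (V : Mat N) (Gs : List (Finset (Fin N))) (U' : Mat N),
      IsPU V ∧ Gs.Pairwise Disjoint ∧ Circ k U' ∧ U = V * RG Gs * U'

theorem Circ.unitary : ∀ {k : ℕ} {U : Mat N}, Circ k U → U ∈ unitary (Mat N)
  | 0, _, h => IsPU.unitary h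
  | _ + 1, _, ⟨_, Gs, _, hV, _, hU', e⟩ =>
    e ▸ mul_mem (mul_mem hV.unitary (RG_unitary Gs)) hU'.unitary

theorem Circ.mul_left : ∀ {k : ℕ} {U W : Mat N}, IsPU W → Circ k U → Circ k (W * U)
  | 0, _, _, hW, h => IsPU.mul hW h
  | _ + 1, _, W, hW, ⟨V, Gs, U', hV, hG, hU', e⟩ =>
    ⟨W * V, Gs, U', hW.mul hV, hG, hU', by rw [e]; simp only [mul_assoc]⟩

theorem Circ.mul_right : ∀ {k : ℕ} {U W : Mat N}, IsPU W → Circ k U → Circ k (U * W)
  | 0, _, _, hW, h => IsPU.mul h hW
  | _ + 1, _, W, hW, ⟨V, Gs, U', hV, hG, hU', e⟩ =>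
    ⟨V, Gs, U' * W, hV, hG, Circ.mul_right hW hU', by rw [e]; simp only [mul_assoc]⟩

theorem Circ.step_right : ∀ {k : ℕ} {U W : Mat N} {Gs : List (Finset (Fin N))},
    IsPU W → Gs.Pairwise Disjoint → Circ k U → Circ (k + 1) (U * RG Gs * W)
  | 0, U, W, Gs, hW, hG, h => ⟨U, Gs, W, h, hG, hW, rfl⟩
  | _ + 1, _, W, Gs, hW, hG, ⟨V, Gs', U', hV, hG', hU', e⟩ =>
    ⟨V, Gs', U' * RG Gs * W, hV, hG', Circ.step_right hW hG hU',
      by rw [e]; simp only [mul_assoc]⟩

theorem Circ.star : ∀ {k : ℕ} {U : Mat N}, Circ k U → Circ k (star U)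
  | 0, _, h => IsPU.star h
  | _ + 1, _, ⟨V, Gs, U', hV, hG, hU', e⟩ => by
    rw [e, star_mul, star_mul, star_RG, ← mul_assoc]
    exact Circ.step_right hV.star hG (Circ.star hU')

theorem Circ.succ {k : ℕ} {U : Mat N} (h : Circ k U) : Circ (k + 1) U :=
  ⟨1, [], U, IsPU.one, List.Pairwise.nil, h, by simp [RG]⟩

theorem Circ.mono {k k' : ℕ} (hk : k ≤ k') {U : Mat N} (h : Circ k U) : Circ k' U := by
  induction hk with
  | refl => exact h
  | step _ ih => exact ih.succ

end Crest.Agent.R344
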