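import Crest.Agent.R344.Est

/-! Bootstrapping the main estimate and adding one layer. -/

set_option autoImplicit false

open scoped Matrix.Norms.L2Operator
open Matrix

namespace Crest.Agent.R344

variable {N : ℕ}

theorem hh_zero : HH N 0 1 := by
  intro U hU Q0 l b hb e he
  obtain ⟨S, h1, h2, -⟩ := hb.conj hU
  have hc : Commute (P (Q0 \ S)) (star U * b * U) := h2.commute_P Finset.sdiff_disjoint
  have e1 : P Q0 = P (Q0 \ S) * P Q0 := by
    rw [P_mul_P, Finset.union_eq_right.2 Finset.sdiff_subset]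
  have h1' : (S.card : ℝ) ≤ 1 * (l + e + 1) := by
    have : (S.card : ℝ) ≤ l := by exact_mod_cast h1
    linarith
  rw [e1, mul_assoc (G _ _), ← mul_assoc _ (P (Q0 \ S)), ← hc.eq, ← mul_assoc, ← mul_assoc,
    G_mul_P_sdiff Q0 S h1', zero_mul, zero_mul, norm_zero]
  exact (Real.exp_pos _).le

theorem pp_init (k : ℕ) {Λ : ℝ} (hΛ : 0 ≤ Λ) : PP N k N Λ := by
  intro U _ Q0 Q e he
  rw [G_eq_zero Q0 (le_add_of_nonneg_right (mul_nonneg hΛ he)), zero_mul, zero_mul, norm_zero]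
  exact (Real.exp_pos _).le

theorem est_boot {k L Λ σ B i : ℕ} {K : ℝ} (hN : (N : ℝ) + 1 ≤ Real.exp L) (hL : 1 ≤ L)
    (hΛ : 1 ≤ Λ) (hσ : 1 ≤ σ) (hB : B = 4800 * Λ * L ^ 3) (hH : HH N k Λ) (hK : 0 ≤ K)
    (hP : PP N k K ((σ : ℝ) * B ^ (i + 1))) {U : Mat N} (hU : Circ k U) (Q0 Q : Finset (Fin N))
    {l : ℕ} {b : Mat N} (hb : Small l b) {e : ℝ} (he : 0 ≤ e) :
    ‖G Q0 (Λ * l + σ * B ^ (i + 2) * (e + 1) + K / σ) *
      (star U * (b * P Q) * U) * P Q0‖ ≤ Real.exp (-e) := by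
  have hL' : (1 : ℝ) ≤ L := by exact_mod_cast hL
  have hΛ' : (1 : ℝ) ≤ Λ := by exact_mod_cast hΛ
  have hσ' : (1 : ℝ) ≤ σ := by exact_mod_cast hσ
  have hB' : (B : ℝ) = 4800 * Λ * L ^ 3 := by rw [hB]; push_cast; ring
  have hL3 : (1 : ℝ) ≤ L ^ 3 := one_le_pow₀ hL'
  have hB1 : (1 : ℝ) ≤ B := by rw [hB']; nlinarith
  have hBi : (B : ℝ) ≤ B ^ (i + 1) := le_self_pow₀ hB1 (by omega)
  have h1 : (1 : ℝ) ≤ σ * B ^ (i + 1) := one_le_mul_of_one_le_of_one_le hσ' (hB1.trans hBi)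
  have h := main_est (s := 48 * L * (σ * B ^ (i + 1))) hN hL hΛ' hH hK h1 hP
    (by push_cast; exact le_rfl) hU Q0 Q hb he
  refine (norm_G_mul_mono Q0 ?_ _ _).trans h
  push_cast
  have e1 : 100 * (Λ : ℝ) * L ^ 2 * (48 * L * (σ * B ^ (i + 1))) = σ * B ^ (i + 2) := by
    rw [pow_succ (B : ℝ) (i + 1)]
    generalize (B : ℝ) ^ (i + 1) = c
    rw [hB']
    ring
  have e2 : 100 * (Λ : ℝ) * L ^ 2 * (K / (48 * L * (σ * B ^ (i + 1)))) ≤ K / σ := by
    rw [← mul_div_assoc, div_le_div_iff₀ (by positivity) (by positivity)]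
    have h2 : 100 * (Λ : ℝ) * L ^ 2 ≤ 48 * L * B ^ (i + 1) := by
      have h3 : (L : ℝ) ^ 2 ≤ L ^ 3 := pow_le_pow_right₀ hL' (by norm_num)
      have h4 : 100 * (Λ : ℝ) * L ^ 2 ≤ B := by rw [hB']; nlinarith
      have h5 : (0 : ℝ) ≤ B ^ (i + 1) := by positivity
      nlinarith
    have h6 : 0 ≤ K * σ := by positivity
    nlinarith
  rw [e1]
  linarith

theorem pp_boot {k L Λ σ B : ℕ} (hN : (N : ℝ) + 1 ≤ Real.exp L) (hL : 1 ≤ L)
    (hΛ : 1 ≤ Λ) (hσ : 1 ≤ σ) (hB : B = 4800 * Λ * L ^ 3) (hH : HH N k Λ) (i : ℕ) :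
    PP N k (N / (σ : ℝ) ^ i + i * (σ * B ^ (i + 1))) ((σ : ℝ) * B ^ (i + 1)) := by
  induction i with
  | zero => simpa using pp_init (N := N) k (Λ := (σ : ℝ) * B) (by positivity)
  | succ i ih =>
    intro U hU Q0 Q e he
    have h := est_boot hN hL hΛ hσ hB hH (by positivity) ih hU Q0 Q Small.one he
    rw [one_mul] at h
    refine (norm_G_mul_mono Q0 ?_ _ _).trans h
    have hσ' : (1 : ℝ) ≤ σ := by exact_mod_cast hσ
    have hB1 : (1 : ℝ) ≤ B := by
      rw [hB]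
      have : 1 ≤ 4800 * Λ * L ^ 3 := Nat.one_le_iff_ne_zero.2 (by positivity)
      exact_mod_cast this
    have h1 : (B : ℝ) ^ (i + 1) ≤ σ * B ^ (i + 1 + 1) := by
      have h2 : (B : ℝ) ^ (i + 1) ≤ B ^ (i + 1 + 1) := pow_le_pow_right₀ hB1 (by omega)
      have h3 : (0 : ℝ) ≤ B ^ (i + 1 + 1) := by positivity
      nlinarith
    have e1 : (N / (σ : ℝ) ^ i + i * (σ * B ^ (i + 1))) / σ =
        N / (σ : ℝ) ^ (i + 1) + i * B ^ (i + 1) := by
      field_simp
      ring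
    rw [e1]
    have h4 : (i : ℝ) * B ^ (i + 1) ≤ i * (σ * B ^ (i + 1 + 1)) :=
      mul_le_mul_of_nonneg_left h1 (Nat.cast_nonneg _)
    push_cast
    linarith

theorem layer_bound (A B : Mat N) (S : Finset (Fin N)) (δ : ℝ)
    (H : ∀ (b : Mat N) (Q : Finset (Fin N)), Loc S b → ‖b‖ ≤ 1 → ‖A * (b * P Q) * B‖ ≤ δ)
    (Gs : List (Finset (Fin N))) :
    ∀ (b : Mat N) (Q : Finset (Fin N)), Loc S b → ‖b‖ ≤ 1 →
      ‖A * (RG Gs * (b * P Q) * RG Gs) * B‖ ≤
        9 ^ (Gs.countP fun g => decide (¬ Disjoint g S)) * δ := by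
  induction Gs with
  | nil => intro b Q h1 h2; simpa [RG] using H b Q h1 h2
  | cons g Gs ih =>
    intro b Q h1 h2
    have e0 : RG (g :: Gs) * (b * P Q) * RG (g :: Gs) =
        RG Gs * (R1 g * (b * P Q) * R1 g) * RG Gs := by
      rw [RG]
      nth_rewrite 1 [← (RG_commute_R1 Gs g).eq]
      simp only [mul_assoc]
    rw [e0]
    by_cases hd : Disjoint g S
    · have hc : Commute (R1 g) (b * P Q) :=
        R1_commute ((h1.commute_P hd).mul_right (P_commute g Q))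
      rw [hc.eq, mul_assoc (b * P Q), R1_mul_self, mul_one, List.countP_cons_of_neg (by simpa)]
      exact ih b Q h1 h2
    · rw [List.countP_cons_of_pos (by simpa), pow_succ]
      have hc : Commute (P (g \ S)) b := h1.commute_P Finset.sdiff_disjoint
      have eg : P g = P (g ∩ S) * P (g \ S) := by
        rw [P_mul_P, Finset.union_comm, Finset.sdiff_union_inter]
      have e1 : P g * b = P (g ∩ S) * b * P (g \ S) := by
        rw [eg, mul_assoc, hc.eq, mul_assoc]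
      have e2 : R1 g * (b * P Q) * R1 g =
          b * P Q - (2 : ℂ) • (b * P (Q ∪ g)) - (2 : ℂ) • (P (g ∩ S) * b * P (g \ S ∪ Q))
            + (4 : ℂ) • (P (g ∩ S) * b * P (g \ S ∪ Q ∪ g)) := by
        simp only [← P_mul_P, ← mul_assoc, ← e1]
        simp only [R1, mul_sub, sub_mul, mul_one, one_mul, smul_mul_assoc, mul_smul_comm,
          mul_assoc]
        module
      have hl : Loc S (P (g ∩ S) * b) := (loc_P Finset.inter_subset_right).mul h1
      have hn : ‖P (g ∩ S) * b‖ ≤ 1 := norm_mul_le_one (norm_P_le _) h2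
      have a1 := ih b Q h1 h2
      have a2 := ih b (Q ∪ g) h1 h2
      have a3 := ih _ (g \ S ∪ Q) hl hn
      have a4 := ih _ (g \ S ∪ Q ∪ g) hl hn
      rw [e2]
      simp only [mul_add, add_mul, mul_sub, sub_mul, smul_mul_assoc, mul_smul_comm]
      refine (norm_add_le _ _).trans ?_
      refine (add_le_add_left (norm_sub_le _ _) _).trans ?_
      refine (add_le_add_left (add_le_add_left (norm_sub_le _ _) _) _).trans ?_
      simp only [norm_smul, Complex.norm_ofNat]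
      linarith

theorem countP_le_card (Gs : List (Finset (Fin N))) (hG : Gs.Pairwise Disjoint) :
    ∀ S : Finset (Fin N), (Gs.countP fun g => decide (¬ Disjoint g S)) ≤ S.card := by
  induction Gs with
  | nil => intro S; simp
  | cons g Gs ih =>
    intro S
    rw [List.pairwise_cons] at hG
    by_cases hd : Disjoint g S
    · rw [List.countP_cons_of_neg (by simpa)]
      exact ih hG.2 S
    · rw [List.countP_cons_of_pos (by simpa)]
      have h1 : (Gs.countP fun g => decide (¬ Disjoint g S)) ≤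
          (Gs.countP fun g' => decide (¬ Disjoint g' (S \ g))) := by
        apply List.countP_mono_left
        intro g' hg' h
        simp only [decide_eq_true_eq] at h ⊢
        intro h'
        apply h
        rw [Finset.disjoint_left] at h' ⊢
        intro a ha haS
        exact h' ha (Finset.mem_sdiff.2 ⟨haS, fun hag =>
          Finset.disjoint_left.1 (hG.1 g' hg') hag ha⟩)
      have h2 : (S \ g).card < S.card := by
        apply Finset.card_lt_card
        refine ⟨Finset.sdiff_subset, fun h => hd ?_⟩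
        rw [Finset.disjoint_left]
        intro a hag haS
        exact (Finset.mem_sdiff.1 (h haS)).2 hag
      have := ih hG.2 (S \ g)
      omega

theorem hh_step {k L Λ σ B I : ℕ} (hN : (N : ℝ) + 1 ≤ Real.exp L) (hL : 1 ≤ L)
    (hΛ : 1 ≤ Λ) (hσ : 1 ≤ σ) (hB : B = 4800 * Λ * L ^ 3) (hI : N ≤ σ ^ I) (hH : HH N k Λ) :
    HH N (k + 1) ((I + 5) * σ * B ^ (I + 2) : ℕ) := by
  rintro U ⟨V, Gs, U', hV, hG, hU', rfl⟩ Q0 l b hb e he
  obtain ⟨S, h1, h2, h3⟩ := hb.conj hV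
  have hP := pp_boot hN hL hΛ hσ hB hH I
  set T : ℝ := (((I + 5) * σ * B ^ (I + 2) : ℕ) : ℝ) * (l + e + 1) with hT
  have hσ' : (1 : ℝ) ≤ σ := by exact_mod_cast hσ
  have hΛB : Λ ≤ B := by
    rw [hB]
    calc Λ = 1 * Λ * 1 := by ring
      _ ≤ 4800 * Λ * L ^ 3 := by gcongr; norm_num; exact Nat.one_le_pow _ _ hL
  have hΛB' : (Λ : ℝ) ≤ B := by exact_mod_cast hΛB
  have hB1 : (1 : ℝ) ≤ B := by exact_mod_cast hΛ.trans hΛB
  have key := layer_bound (G Q0 T * star U') (U' * P Q0) S (Real.exp (-(e + 4 * l)))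
    (fun b' Q hb1 hb2 => by
      have h := est_boot hN hL hΛ hσ hB hH (by positivity) hP hU' Q0 Q ⟨S, h1, hb1, hb2⟩
        (e := e + 4 * l) (by positivity)
      have e2 : G Q0 T * star U' * (b' * P Q) * (U' * P Q0) =
          G Q0 T * (star U' * (b' * P Q) * U') * P Q0 := by simp only [mul_assoc]
      rw [e2]
      refine (norm_G_mul_mono Q0 ?_ _ _).trans h
      have a1 : (N : ℝ) / (σ : ℝ) ^ I ≤ 1 := by
        rw [div_le_one (by positivity)]; exact_mod_cast hI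
      set W : ℝ := σ * B ^ (I + 2) with hW
      have a2 : (σ : ℝ) * B ^ (I + 1) ≤ W :=
        mul_le_mul_of_nonneg_left (pow_le_pow_right₀ hB1 (by omega)) (by positivity)
      have a3 : (B : ℝ) ≤ W := by
        have : (B : ℝ) ≤ B ^ (I + 2) := le_self_pow₀ hB1 (by omega)
        have : (0 : ℝ) ≤ B ^ (I + 2) := by positivity
        nlinarith
      have a4 : (N / (σ : ℝ) ^ I + I * (σ * B ^ (I + 1))) / σ ≤ (I + 1) * W := by
        refine (div_le_self (by positivity) hσ').trans ?_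
        have : (I : ℝ) * (σ * B ^ (I + 1)) ≤ I * W :=
          mul_le_mul_of_nonneg_left a2 (Nat.cast_nonneg _)
        linarith
      have a5 : (Λ : ℝ) * l ≤ W * l := mul_le_mul_of_nonneg_right (by linarith) (Nat.cast_nonneg _)
      have a6 : T = (I + 5) * W * (l + e + 1) := by rw [hT, hW]; push_cast; ring
      have a7 : 0 ≤ W * l := by positivity
      have a8 : 0 ≤ W * e := by positivity
      have a9 : (0 : ℝ) ≤ I := Nat.cast_nonneg _
      have a10 : 0 ≤ I * (W * l) := by positivity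
      have a11 : 0 ≤ I * (W * e) := by positivity
      rw [a6]
      nlinarith) Gs _ ∅ h2 h3
  have e3 : G Q0 T * (star (V * RG Gs * U') * b * (V * RG Gs * U')) * P Q0 =
      G Q0 T * star U' * (RG Gs * (star V * b * V * P ∅) * RG Gs) * (U' * P Q0) := by
    rw [star_mul, star_mul, star_RG, P_empty]
    simp only [mul_assoc, mul_one]
  rw [e3]
  refine key.trans ?_
  have b1 : (9 : ℝ) ^ (Gs.countP fun g => decide (¬ Disjoint g S)) ≤ Real.exp (4 * l) := by
    have b2 := (countP_le_card Gs hG S).trans h1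
    have b3 := two_pow_le_exp (4 * l)
    push_cast at b3
    refine le_trans ?_ b3
    rw [pow_mul]
    calc (9 : ℝ) ^ _ ≤ 9 ^ l := pow_le_pow_right₀ (by norm_num) b2
      _ ≤ _ := pow_le_pow_left₀ (by norm_num) (by norm_num) l
  refine (mul_le_mul_of_nonneg_right b1 (Real.exp_pos _).le).trans (le_of_eq ?_)
  rw [← Real.exp_add]
  congr 1
  ring

theorem polylog_le (c m : ℕ) : ∃ N0 : ℕ, ∀ N ≥ N0, c * (Nat.log 2 N + 1) ^ m ≤ N := by
  have h := tendsto_pow_const_div_const_pow_of_one_lt m (r := 2) (by norm_num)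
  have h2 := h.eventually (ge_mem_nhds (show (0 : ℝ) < 1 / (2 * (c : ℝ) + 1) by positivity))
  obtain ⟨t0, ht0⟩ := Filter.eventually_atTop.1 h2
  refine ⟨2 ^ t0, fun N hN => ?_⟩
  have hN0 : N ≠ 0 := by have : 0 < 2 ^ t0 := by positivity
                         omega
  have h3 : t0 ≤ Nat.log 2 N := (Nat.le_log_iff_pow_le (by norm_num) hN0).2 hN
  have h4 := ht0 (Nat.log 2 N + 1) (by omega)
  have h5 : 2 ^ Nat.log 2 N ≤ N := Nat.pow_log_le_self 2 hN0
  have h5' : (2 : ℝ) ^ Nat.log 2 N ≤ N := by exact_mod_cast h5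
  rw [div_le_div_iff₀ (by positivity) (by positivity), pow_succ] at h4
  have h6 : (0 : ℝ) ≤ ((Nat.log 2 N + 1 : ℕ) : ℝ) ^ m := by positivity
  have h7 : (c : ℝ) * ((Nat.log 2 N + 1 : ℕ) : ℝ) ^ m ≤ N := by nlinarith
  exact_mod_cast h7

theorem hh_all (k : ℕ) : ∀ q : ℕ, 1 ≤ q →
    ∃ N0 : ℕ, ∀ N ≥ N0, ∃ Λ : ℕ, 1 ≤ Λ ∧ Λ ^ q ≤ N ∧ HH N k Λ := by
  induction k with
  | zero =>
    intro q _
    exact ⟨1, fun N hN => ⟨1, le_rfl, by simpa using hN, by simpa using hh_zero⟩⟩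
  | succ k ih =>
    intro q hq
    obtain ⟨N1, h1⟩ := ih ((4 * q + 2) * (4 * q)) (Nat.one_le_iff_ne_zero.2 (by positivity))
    obtain ⟨N2, h2⟩ := polylog_le (((4 * q + 5) * 4800 ^ (4 * q + 2)) ^ (4 * q))
      (3 * (4 * q + 2) * (4 * q))
    refine ⟨N1 + N2 + 2 ^ (2 * q), fun N hN => ?_⟩
    have hq0 : 0 < 2 ^ (2 * q) := by positivity
    obtain ⟨Λ, hΛ1, hΛ2, hH⟩ := h1 N (by omega)
    have h3 := h2 N (by omega)
    set L := Nat.log 2 N + 1 with hL
    set σ := Nat.nthRoot (2 * q) N with hσ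
    have hσ1 : σ ^ (2 * q) ≤ N := Nat.pow_nthRoot_le (Or.inl (by omega))
    have hσ2 : N < (σ + 1) ^ (2 * q) := Nat.lt_pow_nthRoot_add_one (by omega) N
    have hσ3 : 2 ≤ σ := by
      by_contra h
      have : (σ + 1) ^ (2 * q) ≤ 2 ^ (2 * q) := Nat.pow_le_pow_left (by omega) _
      omega
    have hσ4 : N ≤ σ ^ (4 * q) := by
      have : (σ + 1) ^ (2 * q) ≤ (σ ^ 2) ^ (2 * q) := Nat.pow_le_pow_left (by nlinarith) _
      rw [← pow_mul, show 2 * (2 * q) = 4 * q by ring] at this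
      omega
    have hNL : (N : ℝ) + 1 ≤ Real.exp L := by
      have : N < 2 ^ L := Nat.lt_pow_succ_log_self (by norm_num) N
      have h4 : (N : ℝ) + 1 ≤ 2 ^ L := by exact_mod_cast this
      exact h4.trans (two_pow_le_exp L)
    refine ⟨_, ?_, ?_, hh_step hNL (by omega) hΛ1 (by omega) rfl hσ4 hH⟩
    · exact Nat.one_le_iff_ne_zero.2 (by positivity)
    · apply le_of_pow_le_pow_left₀ (n := 4) (by norm_num) (Nat.zero_le _)
      have e : (((4 * q + 5) * σ * (4800 * Λ * L ^ 3) ^ (4 * q + 2)) ^ q) ^ 4 =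
          (((4 * q + 5) * 4800 ^ (4 * q + 2)) ^ (4 * q) * L ^ (3 * (4 * q + 2) * (4 * q))) *
            (σ ^ (2 * q)) ^ 2 * Λ ^ ((4 * q + 2) * (4 * q)) := by
        rw [← pow_mul, ← pow_mul σ, show q * 4 = 4 * q by ring, show 2 * q * 2 = 4 * q by ring]
        simp only [mul_pow, ← pow_mul]
        generalize (4 * q + 5) ^ (4 * q) = a
        generalize 4800 ^ ((4 * q + 2) * (4 * q)) = b
        generalize σ ^ (4 * q) = c
        generalize Λ ^ ((4 * q + 2) * (4 * q)) = d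
        rw [mul_assoc 3]
        generalize L ^ (3 * ((4 * q + 2) * (4 * q))) = f
        ring
      rw [e]
      calc _ ≤ N * N ^ 2 * N := by gcongr
        _ = N ^ 4 := by ring

end Crest.Agent.R344
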