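import Crest.Agent.R344.Basic

/-! Degree and mass of diagonal operators, and the approximating polynomial. -/

set_option autoImplicit false

open scoped Matrix.Norms.L2Operator
open Matrix

namespace Crest.Agent.R344

variable {N : ℕ}

/-- The diagonal operator of a real function on strings. -/
noncomputable def dg (f : Str N → ℝ) : Mat N := diagonal fun y => (f y : ℂ)

theorem dg_mul (f g : Str N → ℝ) : dg (fun y => f y * g y) = dg f * dg g := by
  simp [dg, diagonal_mul_diagonal]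

theorem dg_add (f g : Str N → ℝ) : dg (fun y => f y + g y) = dg f + dg g := by
  simp [dg, diagonal_add]

theorem dg_const (c : ℝ) : dg (fun _ : Str N => c) = (c : ℂ) • (1 : Mat N) := by
  simp [dg, smul_one_eq_diagonal]

theorem norm_dg_le {f : Str N → ℝ} {c : ℝ} (hc : 0 ≤ c) (h : ∀ y, |f y| ≤ c) : ‖dg f‖ ≤ c :=
  norm_diagonal_le hc fun y => by simpa using h y

/-- `f` behaves like a polynomial of degree `D` with coefficient mass `C`. -/
def Deg (f : Str N → ℝ) (D : ℕ) (C : ℝ) : Prop :=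
  0 ≤ C ∧ ∀ (A B : Mat N) (l : ℕ) (δ : ℝ), 0 ≤ δ →
    (∀ b, Small (l + D) b → ‖A * b * B‖ ≤ δ) → ∀ b, Small l b → ‖A * (b * dg f) * B‖ ≤ C * δ

theorem Deg.mono {f : Str N → ℝ} {D D' : ℕ} {C C' : ℝ} (h : Deg f D C) (hD : D ≤ D')
    (hC : C ≤ C') : Deg f D' C' := by
  refine ⟨h.1.trans hC, fun A B l δ hδ H b hb => ?_⟩
  refine (h.2 A B l δ hδ (fun b hb => H b (hb.mono (by omega))) b hb).trans ?_
  exact mul_le_mul_of_nonneg_right hC hδ

theorem Deg.congr {f g : Str N → ℝ} {D : ℕ} {C : ℝ} (h : Deg f D C) (e : ∀ y, g y = f y) :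
    Deg g D C := by
  rwa [show g = f from funext e]

theorem Deg.const (c : ℝ) : Deg (fun _ : Str N => c) 0 |c| := by
  refine ⟨abs_nonneg _, fun A B l δ _ H b hb => ?_⟩
  rw [dg_const, mul_smul_comm, mul_one, mul_smul_comm, smul_mul_assoc, norm_smul]
  rw [Complex.norm_real, Real.norm_eq_abs]
  exact mul_le_mul_of_nonneg_left (H b hb) (abs_nonneg _)

theorem Deg.add {f g : Str N → ℝ} {D : ℕ} {C C' : ℝ} (hf : Deg f D C) (hg : Deg g D C') :
    Deg (fun y => f y + g y) D (C + C') := by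
  refine ⟨add_nonneg hf.1 hg.1, fun A B l δ hδ H b hb => ?_⟩
  rw [dg_add, mul_add, mul_add, add_mul, add_mul]
  exact (norm_add_le _ _).trans (add_le_add (hf.2 A B l δ hδ H b hb) (hg.2 A B l δ hδ H b hb))

theorem Deg.mul {f g : Str N → ℝ} {D D' : ℕ} {C C' : ℝ} (hf : Deg f D C) (hg : Deg g D' C') :
    Deg (fun y => f y * g y) (D + D') (C * C') := by
  refine ⟨mul_nonneg hf.1 hg.1, fun A B l δ hδ H b hb => ?_⟩
  have h := hf.2 A (dg g * B) l (C' * δ) (mul_nonneg hg.1 hδ) (fun b' hb' => by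
    have := hg.2 A B (l + D) δ hδ (fun b hb => H b (by rwa [← add_assoc])) b' hb'
    simpa only [mul_assoc] using this) b hb
  rw [dg_mul]
  simpa only [mul_assoc] using h

theorem Deg.const_mul {f : Str N → ℝ} {D : ℕ} {C : ℝ} (c : ℝ) (hf : Deg f D C) :
    Deg (fun y => c * f y) D (|c| * C) := by
  simpa using (Deg.const c).mul hf

theorem Deg.pow {f : Str N → ℝ} {D : ℕ} {C : ℝ} (hf : Deg f D C) (m : ℕ) :
    Deg (fun y => f y ^ m) (m * D) (C ^ m) := by
  induction m with
  | zero => simpa using Deg.const (N := N) 1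
  | succ m ih =>
    rw [Nat.succ_mul, pow_succ]
    exact (ih.mul hf).congr fun y => pow_succ _ _

theorem Deg.prod {ι : Type*} (s : Finset ι) {f : ι → Str N → ℝ} {D : ℕ} {C : ℝ}
    (hf : ∀ i ∈ s, Deg (f i) D C) : Deg (fun y => ∏ i ∈ s, f i y) (s.card * D) (C ^ s.card) := by
  classical
  induction s using Finset.induction_on with
  | empty => simpa using Deg.const (N := N) 1
  | insert a s ha ih =>
    rw [Finset.card_insert_of_notMem ha, Nat.succ_mul, pow_succ]
    refine ((ih fun i hi => hf i (Finset.mem_insert_of_mem hi)).mul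
      (hf a (Finset.mem_insert_self _ _))).congr fun y => ?_
    rw [Finset.prod_insert ha, mul_comm]

theorem Deg.sum {ι : Type*} (s : Finset ι) {f : ι → Str N → ℝ} {D : ℕ} {C : ℝ}
    (hf : ∀ i ∈ s, Deg (f i) D C) : Deg (fun y => ∑ i ∈ s, f i y) D (s.card * C) := by
  classical
  induction s using Finset.induction_on with
  | empty => simpa using (Deg.const (N := N) 0).mono (Nat.zero_le D) le_rfl
  | insert a s ha ih =>
    rw [Finset.card_insert_of_notMem ha, Nat.cast_succ, add_mul, one_mul]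
    refine ((ih fun i hi => hf i (Finset.mem_insert_of_mem hi)).add
      (hf a (Finset.mem_insert_self _ _))).congr fun y => ?_
    rw [Finset.sum_insert ha, add_comm]

theorem deg_zeroBit (j : Fin N) :
    Deg (fun y : Str N => if y j = false then (1 : ℝ) else 0) 1 1 := by
  refine ⟨zero_le_one, fun A B l δ _ H b hb => ?_⟩
  rw [one_mul]
  apply H
  apply hb.mul
  have : dg (fun y : Str N => if y j = false then (1 : ℝ) else 0) = P {j} := by
    unfold dg P
    congr 1
    funext y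
    simp only [Finset.mem_singleton, forall_eq]
    split_ifs <;> simp
  rw [this]
  exact ⟨{j}, by simp, loc_P subset_rfl, norm_P_le _⟩

theorem deg_wt (Q : Finset (Fin N)) : Deg (fun y : Str N => (wt Q y : ℝ)) 1 (2 * N) := by
  have h1 := Deg.sum Q (fun j _ => deg_zeroBit (N := N) j)
  have h2 := ((Deg.const (N := N) (Q.card : ℝ)).mono zero_le_one le_rfl).add
    (h1.const_mul (-1))
  have hQ : (Q.card : ℝ) ≤ N := by
    exact_mod_cast (by simpa using Finset.card_le_univ Q : Q.card ≤ N)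
  refine (h2.congr fun y => ?_).mono le_rfl ?_
  · unfold wt
    rw [Finset.card_filter]
    push_cast
    rw [Finset.card_eq_sum_ones]
    push_cast
    rw [Finset.mul_sum, ← Finset.sum_add_distrib]
    apply Finset.sum_congr rfl
    intro j _
    cases y j <;> simp
  · rw [abs_of_nonneg (Nat.cast_nonneg _)]
    simp only [abs_neg, abs_one]
    linarith

/-- Chebyshev polynomials as functions. -/
def cheb : ℕ → ℝ → ℝ
  | 0, _ => 1
  | 1, x => x
  | m + 2, x => 2 * x * cheb (m + 1) x - cheb m x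

theorem cheb_cos (θ : ℝ) : ∀ m : ℕ, cheb m (Real.cos θ) = Real.cos (m * θ)
  | 0 => by simp [cheb]
  | 1 => by simp [cheb]
  | m + 2 => by
    rw [cheb, cheb_cos θ (m + 1), cheb_cos θ m]
    have e1 : ((m + 2 : ℕ) : ℝ) * θ = ((m + 1 : ℕ) : ℝ) * θ + θ := by push_cast; ring
    have e2 : (m : ℝ) * θ = ((m + 1 : ℕ) : ℝ) * θ - θ := by push_cast; ring
    rw [e1, e2, Real.cos_add, Real.cos_sub]
    ring

theorem abs_cheb_le_one (m : ℕ) {x : ℝ} (h1 : -1 ≤ x) (h2 : x ≤ 1) : |cheb m x| ≤ 1 := by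
  rw [← Real.cos_arccos h1 h2, cheb_cos]
  exact Real.abs_cos_le_one _

theorem cheb_growth {δ : ℝ} (hδ : 0 ≤ δ) (m : ℕ) :
    1 + (m : ℝ) ^ 2 * δ ≤ cheb m (1 + δ) ∧
      (2 * m + 1) * δ ≤ cheb (m + 1) (1 + δ) - cheb m (1 + δ) := by
  induction m with
  | zero => simp [cheb]
  | succ m ih =>
    obtain ⟨h1, h2⟩ := ih
    have h3 : 1 + ((m + 1 : ℕ) : ℝ) ^ 2 * δ ≤ cheb (m + 1) (1 + δ) := by
      push_cast; nlinarith
    refine ⟨h3, ?_⟩
    rw [cheb]
    have h4 : 1 ≤ cheb (m + 1) (1 + δ) := by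
      have : 0 ≤ ((m + 1 : ℕ) : ℝ) ^ 2 * δ := by positivity
      linarith
    push_cast
    nlinarith

theorem cheb_mono_le {x y : ℝ} (hx : 1 ≤ x) (hxy : x ≤ y) (m : ℕ) :
    (1 ≤ cheb m x ∧ cheb m x ≤ cheb m y) ∧
      0 ≤ cheb (m + 1) x - cheb m x ∧
      cheb (m + 1) x - cheb m x ≤ cheb (m + 1) y - cheb m y := by
  induction m with
  | zero => simp [cheb]; constructor <;> linarith
  | succ m ih =>
    obtain ⟨⟨h1, h2⟩, h3, h4⟩ := ih
    have h5 : 1 ≤ cheb (m + 1) x := by linarith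
    have h6 : cheb (m + 1) x ≤ cheb (m + 1) y := by linarith
    refine ⟨⟨h5, h6⟩, ?_, ?_⟩
    · rw [cheb]; nlinarith
    · rw [cheb, cheb]
      have : (x - 1) * cheb (m + 1) x ≤ (y - 1) * cheb (m + 1) y :=
        mul_le_mul (by linarith) h6 (by linarith) (by linarith)
      nlinarith

theorem abs_cheb_le {x : ℝ} (hx : 1 ≤ |x|) : ∀ m : ℕ, |cheb m x| ≤ (3 * |x|) ^ m
  | 0 => by simp [cheb]
  | 1 => by simp only [cheb, pow_one]; linarith
  | m + 2 => by
    have h1 := abs_cheb_le hx m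
    have h2 := abs_cheb_le hx (m + 1)
    rw [cheb]
    have h3 : |2 * x * cheb (m + 1) x - cheb m x| ≤ 2 * |x| * |cheb (m + 1) x| + |cheb m x| := by
      refine (abs_sub _ _).trans ?_
      rw [abs_mul, abs_mul, abs_two]
    have h4 : 2 * |x| * |cheb (m + 1) x| ≤ 2 * |x| * (3 * |x|) ^ (m + 1) :=
      mul_le_mul_of_nonneg_left h2 (by positivity)
    have h5 : 0 ≤ (3 * |x|) ^ m := by positivity
    have h6 : (3 * |x|) ^ m ≤ (3 * |x| * |x|) * (3 * |x|) ^ m :=
      le_mul_of_one_le_left h5 (by nlinarith)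
    calc _ ≤ 2 * |x| * (3 * |x|) ^ (m + 1) + (3 * |x| * |x|) * (3 * |x|) ^ m := by linarith
      _ = (3 * |x|) ^ (m + 2) := by ring

theorem Deg.cheb {f : Str N → ℝ} {C : ℝ} (hf : Deg f 1 C) :
    ∀ m : ℕ, Deg (fun y => cheb m (f y)) m ((2 * C + 1) ^ m)
  | 0 => by simpa [R344.cheb] using Deg.const (N := N) 1
  | 1 => by
    have := hf.1
    exact (hf.mono le_rfl (by linarith)).congr fun y => rfl
  | m + 2 => by
    have hC := hf.1
    have h1 := ((hf.const_mul 2).mul (Deg.cheb hf (m + 1))).mono (D' := m + 2) (by omega) le_rfl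
    have h2 := ((Deg.cheb hf m).const_mul (-1)).mono (D' := m + 2) (by omega) le_rfl
    refine ((h1.add h2).congr fun y => ?_).mono le_rfl ?_
    · rw [R344.cheb]; ring
    · simp only [abs_two, abs_neg, abs_one, one_mul]
      have h3 : (2 * C + 1) ^ m ≤ (2 * C + 1) ^ (m + 1) :=
        pow_le_pow_right₀ (by linarith) (by omega)
      calc _ ≤ 2 * C * (2 * C + 1) ^ (m + 1) + (2 * C + 1) ^ (m + 1) := by linarith
        _ = _ := by ring

end Crest.Agent.R344
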