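import Crest.Agent.R344.Poly

/-! The main estimate. -/

set_option autoImplicit false

open scoped Matrix.Norms.L2Operator
open Matrix

namespace Crest.Agent.R344

variable {N : ℕ}

/-- Light-cone type tail bound for local contractions under depth `k` circuits. -/
def HH (N k : ℕ) (Λ : ℝ) : Prop :=
  ∀ U : Mat N, Circ k U → ∀ (Q0 : Finset (Fin N)) (l : ℕ) (b : Mat N), Small l b →
    ∀ e : ℝ, 0 ≤ e → ‖G Q0 (Λ * (l + e + 1)) * (star U * b * U) * P Q0‖ ≤ Real.exp (-e)

/-- The same tail bound for zero projectors. -/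
def PP (N k : ℕ) (K Λ : ℝ) : Prop :=
  ∀ U : Mat N, Circ k U → ∀ (Q0 Q : Finset (Fin N)),
    ∀ e : ℝ, 0 ≤ e → ‖G Q0 (K + Λ * e) * (star U * P Q * U) * P Q0‖ ≤ Real.exp (-e)

theorem dg_sum {ι : Type*} (s : Finset ι) (f : ι → Str N → ℝ) :
    dg (fun y => ∑ i ∈ s, f i y) = ∑ i ∈ s, dg (f i) := by
  classical
  induction s using Finset.induction_on with
  | empty => simp [dg]
  | insert a s ha ih =>
    simp only [Finset.sum_insert ha]
    rw [dg_add, ih]

theorem norm_mul_le_one {X Y : Mat N} (hX : ‖X‖ ≤ 1) (hY : ‖Y‖ ≤ 1) : ‖X * Y‖ ≤ 1 :=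
  (norm_mul_le _ _).trans (mul_le_one₀ hX (norm_nonneg _) hY)

theorem norm_mul_le_left {X Y : Mat N} (hY : ‖Y‖ ≤ 1) : ‖X * Y‖ ≤ ‖X‖ :=
  (norm_mul_le _ _).trans (mul_le_of_le_one_right (norm_nonneg _) hY)

theorem norm_mul_le_right {X Y : Mat N} (hX : ‖X‖ ≤ 1) : ‖X * Y‖ ≤ ‖Y‖ :=
  (norm_mul_le _ _).trans (mul_le_of_le_one_left (norm_nonneg _) hX)

theorem P_decomp (Q : Finset (Fin N)) (p : ℕ → ℝ) (hp : p 0 = 1) (T : ℕ) :
    P Q = dg (fun y => p (wt Q y))
      + dg (fun y => if 1 ≤ wt Q y ∧ wt Q y ≤ T then -p (wt Q y) else 0)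
      + ∑ h ∈ (Finset.range (N + 1)).filter (T < ·),
          dg (fun y => if wt Q y = h then -p h else 0) := by
  rw [← dg_sum, ← dg_add, ← dg_add]
  unfold P dg
  congr 1
  funext y
  simp only [Finset.sum_ite_eq]
  have hy : wt Q y < N + 1 := Nat.lt_succ_of_le (wt_le Q y)
  simp only [Finset.mem_filter, Finset.mem_range, hy, true_and, ← wt_eq_zero]
  by_cases h0 : wt Q y = 0
  · simp [h0, hp]
  · have h1 : 1 ≤ wt Q y := Nat.one_le_iff_ne_zero.2 h0
    by_cases h2 : wt Q y ≤ T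
    · simp [h0, h1, h2, not_lt.2 h2]
    · simp [h0, h2, not_le.1 h2]

theorem norm_sq_trick {X A U B : Mat N} (hX : ‖X‖ ≤ 1) (hA : star A = A) (hB : star B = B)
    (hBB : B * B = B) :
    ‖X * A * U * B‖ * ‖X * A * U * B‖ ≤ ‖X * A * (U * B * star U * A)‖ := by
  have e : (X * A * U * B) * star (X * A * U * B) = X * A * (U * B * star U * A) * star X := by
    rw [star_mul, star_mul, star_mul, hA, hB]
    simp only [mul_assoc]
    rw [← mul_assoc B B, hBB]
  have hX' : ‖star X‖ ≤ 1 := by rw [norm_star]; exact hX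
  rw [← CStarRing.norm_self_mul_star, e]
  exact norm_mul_le_left hX'

theorem main_est {k L s : ℕ} {Λ K Λ1 : ℝ} (hN : (N : ℝ) + 1 ≤ Real.exp L) (hL : 1 ≤ L)
    (hΛ : 1 ≤ Λ) (hH : HH N k Λ) (hK : 0 ≤ K) (hΛ1 : 1 ≤ Λ1) (hP : PP N k K Λ1)
    (hs : 48 * L * Λ1 ≤ s) {U : Mat N} (hU : Circ k U) (Q0 Q : Finset (Fin N)) {l : ℕ}
    {b : Mat N} (hb : Small l b) {e : ℝ} (he : 0 ≤ e) :
    ‖G Q0 (Λ * l + 100 * Λ * L ^ 2 * s * (e + 1) + 100 * Λ * L ^ 2 * (K / s)) *
      (star U * (b * P Q) * U) * P Q0‖ ≤ Real.exp (-e) := by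
  have hL' : (1 : ℝ) ≤ L := by exact_mod_cast hL
  have hs48 : (48 : ℝ) ≤ s := by nlinarith
  have hs1 : 1 ≤ s := by exact_mod_cast (by linarith : (1 : ℝ) ≤ s)
  set T : ℝ := Λ * l + 100 * Λ * L ^ 2 * s * (e + 1) + 100 * Λ * L ^ 2 * (K / s) with hT
  set r : ℕ := ⌈2 * e + 2 + 2 * K / s ^ 2⌉₊ with hr
  have hKs : 0 ≤ 2 * K / (s : ℝ) ^ 2 := by positivity
  have hr1 : 2 * e + 2 + 2 * K / s ^ 2 ≤ r := Nat.le_ceil _
  have hr2 : (r : ℝ) < 2 * e + 2 + 2 * K / s ^ 2 + 1 := Nat.ceil_lt_add_one (by positivity)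
  have hr' : (2 : ℝ) ≤ r := by linarith
  have hr0 : 1 ≤ r := by exact_mod_cast (by linarith : (1 : ℝ) ≤ r)
  obtain ⟨p, hp0, hp1, hp2, hp3⟩ := exists_poly (N := N) L r s hN hL hr0 hs1
  have hUu := hU.unitary
  have hU1 : ‖U‖ ≤ 1 := norm_unitary_le hUu
  have hU2 : ‖star U‖ ≤ 1 := by rwa [norm_star]
  have hb1 : ‖b‖ ≤ 1 := by obtain ⟨S, -, -, h⟩ := hb; exact h
  set X : Mat N := G Q0 T * star U * b with hX
  have hX1 : ‖X‖ ≤ 1 := norm_mul_le_one (norm_mul_le_one (norm_G_le _ _) hU2) hb1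
  set M : Mat N := U * P Q0 * star U * P Q with hM
  have hM1 : ‖M‖ ≤ 1 :=
    norm_mul_le_one (norm_mul_le_one (norm_mul_le_one hU1 (norm_P_le _)) hU2) (norm_P_le _)
  -- first term
  set D : ℕ := 3 * L * r * s with hD
  have t1 : ‖X * dg (fun y => p (wt Q y)) * M‖ ≤ Real.exp (-r) := by
    have e1 : X * dg (fun y => p (wt Q y)) * M =
        (G Q0 T * star U) * (b * dg (fun y => p (wt Q y))) * (U * P Q0) * (star U * P Q) := by
      simp only [hX, hM, mul_assoc]
    rw [e1]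
    refine (norm_mul_le_left (norm_mul_le_one hU2 (norm_P_le _))).trans ?_
    have h1 := (hp3 Q).2 (G Q0 T * star U) (U * P Q0) l (Real.exp (-(4 * L * D + r)))
      (Real.exp_pos _).le (fun b' hb' => by
        have h2 := hH U hU Q0 _ b' hb' (4 * L * D + r) (by positivity)
        have e2 : G Q0 T * star U * b' * (U * P Q0) = G Q0 T * (star U * b' * U) * P Q0 := by
          simp only [mul_assoc]
        rw [e2]
        refine (norm_G_mul_mono Q0 ?_ _ _).trans h2
        have hD' : (D : ℝ) = 3 * L * (r * s) := by rw [hD]; push_cast; ring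
        have hrs : (r : ℝ) * s ≤ 3 * (s * (e + 1)) + 2 * (K / s) := by
          have : 2 * K / (s : ℝ) ^ 2 * s = 2 * (K / s) := by field_simp
          nlinarith
        have hrs1 : (r : ℝ) + 1 ≤ r * s := by nlinarith
        have hKs' : 0 ≤ K / (s : ℝ) := by positivity
        have hse : 0 ≤ (s : ℝ) * (e + 1) := by positivity
        have hL2 : (L : ℝ) ≤ L ^ 2 := by nlinarith
        have hrs0 : (0 : ℝ) ≤ r * s := by positivity
        have h3 : (D : ℝ) + (4 * L * D + r) + 1 ≤ 16 * L ^ 2 * (r * s) := by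
          rw [hD']; nlinarith
        have h4 : 16 * (L : ℝ) ^ 2 * (r * s) ≤
            100 * L ^ 2 * (s * (e + 1)) + 100 * L ^ 2 * (K / s) := by
          have : (0 : ℝ) ≤ L ^ 2 := by positivity
          nlinarith
        push_cast
        rw [hT]
        nlinarith) b hb
    refine h1.trans (le_of_eq ?_)
    rw [← Real.exp_add]
    congr 1
    ring
  -- second term
  have t2 : ‖X * dg (fun y => if 1 ≤ wt Q y ∧ wt Q y ≤ r * (s ^ 2 + 1) then -p (wt Q y) else 0)
      * M‖ ≤ Real.exp (-r) := by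
    refine (norm_mul_le_left hM1).trans ((norm_mul_le_right hX1).trans ?_)
    apply norm_dg_le (Real.exp_pos _).le
    intro y
    split_ifs with h
    · rw [abs_neg]; exact hp1 _ h.1 h.2 (wt_le Q y)
    · simpa using (Real.exp_pos _).le
  -- third term
  have t3 : ∀ h ∈ (Finset.range (N + 1)).filter (r * (s ^ 2 + 1) < ·),
      ‖X * dg (fun y => if wt Q y = h then -p h else 0) * M‖ ≤ Real.exp (-(r + L)) := by
    intro h hh
    rw [Finset.mem_filter, Finset.mem_range] at hh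
    obtain ⟨hh1, hh2⟩ := hh
    have hh2' : (r : ℝ) * (s ^ 2 + 1) < h := by exact_mod_cast hh2
    have hKh : 2 * K ≤ r * (s : ℝ) ^ 2 := by
      have : 2 * K / (s : ℝ) ^ 2 ≤ r := by linarith
      rwa [div_le_iff₀ (by positivity)] at this
    have hrs : 48 * ((r : ℝ) * s) ≤ r * s ^ 2 := by
      have : (0 : ℝ) ≤ r * s := by positivity
      nlinarith
    have hrs2 : (96 : ℝ) ≤ r * s := by nlinarith
    have e0 : 0 ≤ ((h : ℝ) - 1 - K) / Λ1 := div_nonneg (by nlinarith) (by linarith)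
    have h2 := hP (star U) hU.star Q Q0 _ e0
    have e1 : K + Λ1 * (((h : ℝ) - 1 - K) / Λ1) = h - 1 := by field_simp; ring
    rw [e1, star_star] at h2
    have e2 : dg (fun y => if wt Q y = h then -p h else 0) =
        dg (fun y => if wt Q y = h then -p h else 0) * G Q (h - 1) := by
      unfold dg G
      rw [diagonal_mul_diagonal]
      congr 1
      funext y
      by_cases hy : wt Q y = h
      · simp [hy]
      · simp [hy]
    have e3 : X * dg (fun y => if wt Q y = h then -p h else 0) * M =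
        X * (dg (fun y => if wt Q y = h then -p h else 0) *
          (G Q (h - 1) * (U * P Q0 * star U) * P Q)) := by
      conv_lhs => rw [e2]
      simp only [hM, mul_assoc]
    rw [e3]
    refine (norm_mul_le_right hX1).trans ((norm_mul_le _ _).trans ?_)
    have h3 : ‖dg (fun y => if wt Q y = h then -p h else 0)‖ ≤
        Real.exp (L * r + 12 * L * h / s) := by
      apply norm_dg_le (Real.exp_pos _).le
      intro y
      split_ifs with hy
      · rw [abs_neg]; exact hp2 _ hh2 (by omega)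
      · simpa using (Real.exp_pos _).le
    refine (mul_le_mul h3 h2 (norm_nonneg _) (Real.exp_pos _).le).trans ?_
    rw [← Real.exp_add]
    apply Real.exp_le_exp.2
    have h4 : L * r + 12 * L * h / s + r + L ≤ ((h : ℝ) - 1 - K) / Λ1 := by
      rw [le_div_iff₀ (by linarith)]
      have h5 : 12 * L * h / s * Λ1 ≤ (h : ℝ) / 4 := by
        rw [div_mul_eq_mul_div, div_le_div_iff₀ (by positivity) (by norm_num)]
        have : (0 : ℝ) ≤ h := Nat.cast_nonneg _
        nlinarith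
      have h6 : ((L : ℝ) * r + r + L) ≤ 3 * (L * r) := by nlinarith
      have h7 : ((L : ℝ) * r + r + L) * Λ1 ≤ 3 * (L * r) * Λ1 :=
        mul_le_mul_of_nonneg_right h6 (by linarith)
      have h8 : 3 * ((L : ℝ) * r) * Λ1 * 16 ≤ r * s := by nlinarith
      nlinarith
    linarith
  have t3' : ‖X * (∑ h ∈ (Finset.range (N + 1)).filter (r * (s ^ 2 + 1) < ·),
      dg (fun y => if wt Q y = h then -p h else 0)) * M‖ ≤ Real.exp (-r) := by
    rw [Finset.mul_sum, Finset.sum_mul]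
    refine (norm_sum_le_of_le _ t3).trans ?_
    rw [Finset.sum_const, nsmul_eq_mul]
    have hc : (((Finset.range (N + 1)).filter (r * (s ^ 2 + 1) < ·)).card : ℝ) ≤ N + 1 := by
      have := Finset.card_filter_le (Finset.range (N + 1)) (r * (s ^ 2 + 1) < ·)
      rw [Finset.card_range] at this
      exact_mod_cast this
    refine (mul_le_mul_of_nonneg_right (hc.trans hN) (Real.exp_pos _).le).trans (le_of_eq ?_)
    rw [← Real.exp_add]
    congr 1
    ring
  have tot : ‖X * P Q * M‖ ≤ 3 * Real.exp (-r) := by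
    rw [P_decomp Q p hp0 (r * (s ^ 2 + 1)), mul_add, mul_add, add_mul, add_mul]
    refine (norm_add₃_le).trans ?_
    linarith
  have eY : G Q0 T * (star U * (b * P Q) * U) * P Q0 = X * P Q * U * P Q0 := by
    simp only [hX, mul_assoc]
  rw [eY]
  have hsq : ‖X * P Q * U * P Q0‖ * ‖X * P Q * U * P Q0‖ ≤ Real.exp (-e) * Real.exp (-e) := by
    refine (norm_sq_trick hX1 (star_P Q) (star_P Q0) (P_mul_self Q0)).trans (tot.trans ?_)
    have h3 : (3 : ℝ) ≤ Real.exp (2 : ℕ) := by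
      have := two_pow_le_exp 2
      linarith
    refine (mul_le_mul_of_nonneg_right h3 (Real.exp_pos _).le).trans ?_
    rw [← Real.exp_add, ← Real.exp_add]
    apply Real.exp_le_exp.2
    push_cast
    linarith
  exact (mul_self_le_mul_self_iff (norm_nonneg _) (Real.exp_pos _).le).2 hsq

end Crest.Agent.R344
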