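import Crest.Agent.R344.Basic
import Crest.Prelude.Def_QCircuit

/-! Well-formed circuits are circuits in normal form. -/

set_option autoImplicit false

open scoped Matrix.Norms.L2Operator
open Matrix Crest.Quantum.Circuit

namespace Crest.Agent.R344

variable {N : ℕ}

/-- Normal form of a layer supported on `S`. -/
def NF (S : Finset (Fin N)) (M : Mat N) : Prop :=
  ∃ (c u : Fin N → M2) (Gs : List (Finset (Fin N))), (∀ j, c j ∈ unitary M2) ∧
    (∀ j, u j ∈ unitary M2) ∧ (∀ j, j ∉ S → c j = 1) ∧ (∀ j, j ∉ S → u j = 1) ∧
    Gs.Pairwise Disjoint ∧ (∀ A ∈ Gs, A ⊆ S) ∧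
    M = prodOp c * RG Gs * star (prodOp c) * prodOp u

theorem RG_append (Gs Gs' : List (Finset (Fin N))) : RG (Gs ++ Gs') = RG Gs * RG Gs' := by
  induction Gs with
  | nil => simp [RG]
  | cons g Gs ih => rw [List.cons_append, RG, RG, ih, mul_assoc]

theorem loc_RG {S : Finset (Fin N)} {Gs : List (Finset (Fin N))} (h : ∀ A ∈ Gs, A ⊆ S) :
    Loc S (RG Gs) :=
  fun v hv => (RG_commute fun A hA => (loc_P (h A hA) v hv).symm).symm

theorem NF.one : NF (∅ : Finset (Fin N)) 1 :=
  ⟨fun _ => 1, fun _ => 1, [], fun _ => one_mem _, fun _ => one_mem _, fun _ _ => rfl,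
    fun _ _ => rfl, List.Pairwise.nil, by simp, by simp [prodOp_one, RG]⟩

theorem NF.mul {S S' : Finset (Fin N)} (hd : Disjoint S S') {M M' : Mat N} (h : NF S M)
    (h' : NF S' M') : NF (S ∪ S') (M * M') := by
  obtain ⟨c, u, Gs, h1, h2, h3, h4, h5, h6, rfl⟩ := h
  obtain ⟨c', u', Gs', h1', h2', h3', h4', h5', h6', rfl⟩ := h'
  refine ⟨fun j => c j * c' j, fun j => u j * u' j, Gs ++ Gs', fun j => mul_mem (h1 j) (h1' j),
    fun j => mul_mem (h2 j) (h2' j), fun j hj => ?_, fun j hj => ?_, ?_, ?_, ?_⟩
  · rw [Finset.mem_union, not_or] at hj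
    simp only [h3 j hj.1, h3' j hj.2, mul_one]
  · rw [Finset.mem_union, not_or] at hj
    simp only [h4 j hj.1, h4' j hj.2, mul_one]
  · rw [List.pairwise_append]
    exact ⟨h5, h5', fun A hA B hB => hd.mono (h6 A hA) (h6' B hB)⟩
  · intro A hA
    rcases List.mem_append.1 hA with h | h
    · exact (h6 A h).trans Finset.subset_union_left
    · exact (h6' A h).trans Finset.subset_union_right
  · rw [← prodOp_mul, ← prodOp_mul, RG_append, star_mul]
    have a1 : Commute (star (prodOp c) * prodOp u) (prodOp c' * RG Gs' * star (prodOp c')) := by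
      rw [star_prodOp, prodOp_mul]
      refine (((loc_prodOp h3').mul (loc_RG h6')).mul ?_) _ ?_
      · rw [star_prodOp]
        exact loc_prodOp fun j hj => by rw [h3' j hj, star_one]
      · intro j hj
        have : j ∉ S := fun h => Finset.disjoint_left.1 hd h hj
        simp only [h3 j this, h4 j this, star_one, mul_one]
    have a2 : Commute (prodOp c') (RG Gs) :=
      loc_RG h6 _ fun j hj => h3' j (Finset.disjoint_left.1 hd hj)
    calc prodOp c * RG Gs * star (prodOp c) * prodOp u *
          (prodOp c' * RG Gs' * star (prodOp c') * prodOp u')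
        = prodOp c * RG Gs * ((star (prodOp c) * prodOp u) *
          (prodOp c' * RG Gs' * star (prodOp c'))) * prodOp u' := by simp only [mul_assoc]
      _ = prodOp c * (RG Gs * prodOp c') * RG Gs' * star (prodOp c') *
          (star (prodOp c) * prodOp u) * prodOp u' := by rw [a1.eq]; simp only [mul_assoc]
      _ = _ := by rw [← a2.eq]; simp only [mul_assoc]

theorem site_mulVec (i : Fin N) (W : M2) (ψ : Str N → ℂ) (σ : Str N) :
    (prodOp (Function.update (fun _ => (1 : M2)) i W)).mulVec ψ σ =
      ∑ b : Bool, W (σ i) b * ψ (Function.update σ i b) := by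
  show ∑ y : Str N, prodOp (Function.update (fun _ => (1 : M2)) i W) σ y * ψ y = _
  symm
  apply Fintype.sum_of_injective (fun b => Function.update σ i b) (Function.update_injective σ i)
  · intro y hy
    have : ∃ j, j ≠ i ∧ σ j ≠ y j := by
      by_contra h
      push Not at h
      apply hy
      refine ⟨y i, ?_⟩
      funext j
      by_cases hj : j = i
      · subst hj; simp
      · simp [Function.update_of_ne hj, h j hj]
    obtain ⟨j, hj, hy⟩ := this
    rw [prodOp_apply, Finset.prod_eq_zero (Finset.mem_univ j), zero_mul]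
    rw [Function.update_of_ne hj, one_apply_ne hy]
  · intro b
    congr 1
    rw [prodOp_apply, Finset.prod_eq_single i]
    · simp
    · intro j _ hj
      simp [Function.update_of_ne hj]
    · simp

/-- A complex number of squared modulus one half. -/
noncomputable def al : ℂ := (1 + Complex.I) / 2

theorem al_mul_star : al * star al = 1 / 2 := by
  simp only [al, star_div₀, star_add, star_one, Complex.star_def, Complex.conj_I,
    Complex.conj_ofNat]
  ring_nf
  simp
  norm_num

theorem star_mul_al : star al * al = 1 / 2 := by rw [mul_comm, al_mul_star]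

/-- The bit flip. -/
def mX : M2 := Matrix.of fun a b => if a = b then 0 else 1

/-- A unitary with first column proportional to `(1, -1)`. -/
noncomputable def mM : M2 := Matrix.of fun a b => if a = true ∧ b = false then -al else al

theorem mX_unitary : mX ∈ unitary M2 := by
  rw [Unitary.mem_iff]
  constructor <;> ext a b <;> cases a <;> cases b <;>
    simp [mX, Matrix.mul_apply, Matrix.star_apply]

theorem mM_unitary : mM ∈ unitary M2 := by
  have h1 := al_mul_star
  have h2 := star_mul_al
  rw [Complex.star_def] at h1 h2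
  rw [Unitary.mem_iff]
  constructor <;> ext a b <;> cases a <;> cases b <;>
    simp [mM, Matrix.mul_apply, Matrix.star_apply, h1, h2] <;> norm_num

theorem gate_link (g : Gate N) (hg : g.WellFormed) :
    ∃ M : Mat N, NF g.support M ∧ ∀ ψ, g.apply ψ = M.mulVec ψ := by
  cases g with
  | oneQubit i W =>
    refine ⟨prodOp (Function.update (fun _ => (1 : M2)) i W),
      ⟨fun _ => 1, Function.update (fun _ => (1 : M2)) i W, [], fun _ => one_mem _, fun j => ?_,
        fun _ _ => rfl, fun j hj => ?_, List.Pairwise.nil, by simp, by simp [prodOp_one, RG]⟩,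
      fun ψ => ?_⟩
    · by_cases hj : j = i
      · subst hj; rw [Function.update_self]; exact hg
      · rw [Function.update_of_ne hj]; exact one_mem _
    · rw [Function.update_of_ne]
      simpa [Gate.support] using hj
    · funext σ
      rw [site_mulVec]
      rfl
  | toffoli S t =>
    have ht : t ∉ S := hg
    set c : Fin N → M2 := fun j => if j ∈ S then mX else if j = t then mM else 1 with hc
    have hcu : ∀ j, c j ∈ unitary M2 := by
      intro j
      simp only [hc]
      split_ifs
      exacts [mX_unitary, mM_unitary, one_mem _]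
    refine ⟨prodOp c * RG [insert t S] * star (prodOp c) * prodOp (fun _ => 1),
      ⟨c, fun _ => 1, [insert t S], hcu, fun _ => one_mem _, fun j hj => ?_,
        fun _ _ => rfl, List.pairwise_singleton _ _, by simp [Gate.support], rfl⟩,
      fun ψ => ?_⟩
    · simp only [Gate.support, Finset.mem_insert, not_or] at hj
      simp [hc, hj.1, hj.2]
    · set pm : M2 := Matrix.of fun a b => if a = b then 1 / 2 else -(1 / 2) with hpm
      have e1 : prodOp c * P (insert t S) * star (prodOp c) =
          prodOp (fun j => diagonal fun b => if j ∈ S ∧ b = false then 0 else 1) *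
            prodOp (Function.update (fun _ => (1 : M2)) t pm) := by
        rw [P_eq_prodOp, star_prodOp, prodOp_mul, prodOp_mul, prodOp_mul]
        congr 1
        funext j
        by_cases h1 : j ∈ S
        · have h2 : j ≠ t := fun h => ht (h ▸ h1)
          rw [Function.update_of_ne h2]
          ext a b
          cases a <;> cases b <;> simp [hc, h1, pv, mX, Matrix.mul_apply, Matrix.star_apply]
        · by_cases h2 : j = t
          · subst h2
            have h3 := al_mul_star
            rw [Complex.star_def] at h3
            rw [Function.update_self]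
            ext a b
            cases a <;> cases b <;>
              simp [hc, h1, pv, mM, hpm, Matrix.mul_apply, Matrix.star_apply, h3]
          · rw [Function.update_of_ne h2]
            simp [hc, h1, h2, pv]
      have e2 : prodOp c * RG [insert t S] * star (prodOp c) * prodOp (fun _ => 1) =
          1 - (2 : ℂ) • (prodOp c * P (insert t S) * star (prodOp c)) := by
        rw [prodOp_one, RG, RG, R1]
        simp only [mul_one, mul_sub, sub_mul, smul_mul_assoc, mul_smul_comm,
          (prodOp_unitary hcu).2]
      rw [e2, e1, prodOp_diagonal, sub_mulVec, one_mulVec, smul_mulVec, ← mulVec_mulVec]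
      funext σ
      simp only [Pi.sub_apply, Pi.smul_apply, mulVec_diagonal, site_mulVec, Gate.apply]
      by_cases hall : ∀ i ∈ S, σ i = true
      · rw [Finset.prod_eq_one (fun j _ => by
          rw [if_neg]; rintro ⟨h1, h2⟩; simp [hall j h1] at h2)]
        rw [decide_eq_true hall]
        have h0 : Function.update σ t (σ t) = σ := Function.update_eq_self t σ
        cases hσ : σ t
        · rw [hσ] at h0
          simp [hpm, h0]
          ring
        · rw [hσ] at h0
          simp [hpm, h0]
          ring
      · rw [decide_eq_false hall]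
        push Not at hall
        obtain ⟨j, h1, h2⟩ := hall
        rw [Finset.prod_eq_zero (Finset.mem_univ j) (by rw [if_pos ⟨h1, by simpa using h2⟩])]
        simp

theorem layer_link (L : List (Gate N)) (hL : LayerWF L) :
    ∃ (S : Finset (Fin N)) (M : Mat N), (∀ j ∈ S, ∃ g ∈ L, j ∈ g.support) ∧ NF S M ∧
      ∀ ψ, applyLayer L ψ = M.mulVec ψ := by
  induction L with
  | nil => exact ⟨∅, 1, by simp, NF.one, fun ψ => by simp [applyLayer]⟩
  | cons g L ih =>
    obtain ⟨h1, h2⟩ := hL
    rw [List.pairwise_cons] at h2
    obtain ⟨S, M, a1, a2, a3⟩ := ih ⟨fun g' hg' => h1 g' (List.mem_cons_of_mem _ hg'), h2.2⟩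
    obtain ⟨M0, b1, b2⟩ := gate_link g (h1 g List.mem_cons_self)
    refine ⟨S ∪ g.support, M * M0, fun j hj => ?_, a2.mul ?_ b1, fun ψ => ?_⟩
    · rcases Finset.mem_union.1 hj with h | h
      · obtain ⟨g', h3, h4⟩ := a1 j h
        exact ⟨g', List.mem_cons_of_mem _ h3, h4⟩
      · exact ⟨g, List.mem_cons_self, h⟩
    · rw [Finset.disjoint_left]
      intro j hj hj'
      obtain ⟨g', h3, h4⟩ := a1 j hj
      exact Finset.disjoint_left.1 (h2.1 g' h3) hj' h4
    · rw [← mulVec_mulVec, ← b2, ← a3]
      rfl

theorem circuit_link (C : List (List (Gate N))) (hC : CircuitWF C) :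
    ∃ U : Mat N, Circ C.length U ∧ ∀ ψ, runCircuit C ψ = U.mulVec ψ := by
  induction C with
  | nil => exact ⟨1, IsPU.one, fun ψ => by simp [runCircuit]⟩
  | cons L C ih =>
    obtain ⟨U, a1, a2⟩ := ih fun L' hL' => hC L' (List.mem_cons_of_mem _ hL')
    obtain ⟨S, M, -, ⟨c, u, Gs, h1, h2, -, -, h5, -, rfl⟩, b3⟩ :=
      layer_link L (hC L List.mem_cons_self)
    refine ⟨(U * prodOp c) * RG Gs * (star (prodOp c) * prodOp u), ?_, fun ψ => ?_⟩
    · exact Circ.step_right (IsPU.mul (IsPU.star ⟨c, h1, rfl⟩) ⟨u, h2, rfl⟩) h5
        (a1.mul_right ⟨c, h1, rfl⟩)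
    · have : U * prodOp c * RG Gs * (star (prodOp c) * prodOp u) =
          U * (prodOp c * RG Gs * star (prodOp c) * prodOp u) := by simp only [mul_assoc]
      rw [this, ← mulVec_mulVec, ← b3, ← a2]
      rfl

end Crest.Agent.R344
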