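import Crest.Agent.R344.Boot
import Crest.Agent.R344.Link

/-! From the tail bound to the failure on parity. -/

set_option autoImplicit false

open scoped Matrix.Norms.L2Operator
open Matrix Crest.Quantum.Circuit

namespace Crest.Agent.R344

variable {N : ℕ}

theorem norm_entry_le (A : Mat N) (y y' : Str N) : ‖A y y'‖ ≤ ‖A‖ := by
  have h := Matrix.l2_opNorm_mulVec A (EuclideanSpace.single y' (1 : ℂ))
  have h2 := PiLp.norm_apply_le
    ((EuclideanSpace.equiv (Str N) ℂ).symm (A *ᵥ (EuclideanSpace.single y' (1 : ℂ)))) y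
  simp at h h2
  exact h2.trans h

theorem neg_one_pow_bodd (m : ℕ) : (-1 : ℝ) ^ m = if Nat.bodd m = true then -1 else 1 := by
  induction m with
  | zero => simp
  | succ m ih =>
    rw [pow_succ, ih, Nat.bodd_succ]
    cases Nat.bodd m <;> simp

theorem diag_entry {U : Mat N} (hU : U ∈ unitary (Mat N)) (o : Fin N) (b : Bool) (τ : Str N) :
    (star U * RG [{o}] * U) τ τ =
      (((if b = true then 1 else -1) * (2 * outcomeProb o b (U.mulVec (basisState τ)) - 1) : ℝ)
        : ℂ) := by
  have e0 : U.mulVec (basisState τ) = fun σ => U σ τ := by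
    funext σ
    simp [Matrix.mulVec, dotProduct, basisState]
  have e1 : RG [{o}] = (diagonal fun y => if y o = false then -1 else 1 : Mat N) := by
    rw [RG, RG, mul_one, R1, P, ← diagonal_one, ← diagonal_smul, diagonal_sub]
    congr 1
    funext y
    simp only [Finset.mem_singleton, forall_eq, Pi.smul_apply]
    split_ifs <;> norm_num
  have e2 : ∀ σ, (starRingEnd ℂ) (U σ τ) * U σ τ = ((‖U σ τ‖ ^ 2 : ℝ) : ℂ) := by
    intro σ
    rw [Complex.conj_mul']
    push_cast
    rfl
  have e3 : ((∑ σ, ‖U σ τ‖ ^ 2 : ℝ) : ℂ) = 1 := by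
    have := congrFun (congrFun hU.1 τ) τ
    rw [Matrix.mul_apply, one_apply_eq] at this
    rw [← this]
    push_cast
    apply Finset.sum_congr rfl
    intro σ _
    rw [Matrix.star_apply, Complex.star_def, e2]
    push_cast
    rfl
  have e3' : ∑ σ, ‖U σ τ‖ ^ 2 = 1 := by exact_mod_cast e3
  rw [e0, e1, Matrix.mul_apply, outcomeProb]
  have e4 : ∀ s a : ℝ, s * (a - 1) = s * (a - ∑ σ, ‖U σ τ‖ ^ 2) := fun s a => by rw [e3']
  rw [e4, Finset.mul_sum, ← Finset.sum_sub_distrib, Finset.mul_sum, Complex.ofReal_sum]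
  apply Finset.sum_congr rfl
  intro σ _
  rw [mul_diagonal, Matrix.star_apply, Complex.star_def, mul_right_comm, e2]
  cases b <;> cases σ o <;> simp <;> ring

/-- Phase-twisted Hadamard gates. -/
noncomputable def mH (s : Bool) : M2 :=
  Matrix.of fun a b => if (a && xor b s) = true then -al else al

theorem mH_unitary (s : Bool) : mH s ∈ unitary M2 := by
  have h1 := al_mul_star
  have h2 := star_mul_al
  rw [Complex.star_def] at h1 h2
  rw [Unitary.mem_iff]
  constructor <;> ext a b <;> cases a <;> cases b <;> cases s <;>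
    simp [mH, Matrix.mul_apply, Matrix.star_apply, h1, h2] <;> norm_num

theorem parity_bound {n : ℕ} (hn : n ≤ N) {U : Mat N} (hU : U ∈ unitary (Mat N)) (o : Fin N)
    {ε δ : ℝ} (hε : 0 ≤ ε)
    (hs : ∀ x : Fin n → Bool,
      1 / 2 + ε ≤ outcomeProb o (parity x) (U.mulVec (basisState (inputString n x))))
    (hδ : ∀ c : Mat N, IsPU c →
      ‖G (Finset.univ.filter fun j : Fin N => (j : ℕ) < n) (n - 1) *
        (star (U * c) * RG [{o}] * (U * c)) *
        P (Finset.univ.filter fun j : Fin N => (j : ℕ) < n)‖ ≤ δ) : 2 * ε ≤ δ := by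
  set O : Mat N := star U * RG [{o}] * U with hO
  set c : Str N → Fin N → M2 := fun y j => if (j : ℕ) < n then mH (y j) else 1 with hc
  set t1 : Str N := fun j => decide ((j : ℕ) < n) with ht1
  set t0 : Str N := fun _ => false with ht0
  have hent : ∀ y, ‖(star (prodOp (c y)) * O * prodOp (c y)) t1 t0‖ ≤ δ := by
    intro y
    have h := hδ (prodOp (c y)) ⟨c y, fun j => by
      simp only [hc]; split_ifs; exacts [mH_unitary _, one_mem _], rfl⟩
    refine le_trans (le_of_eq ?_) ((norm_entry_le _ t1 t0).trans h)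
    have e : star (U * prodOp (c y)) * RG [{o}] * (U * prodOp (c y)) =
        star (prodOp (c y)) * O * prodOp (c y) := by
      rw [star_mul, hO]; simp only [mul_assoc]
    rw [e, G, P, mul_diagonal, diagonal_mul, if_pos, if_pos, one_mul, mul_one]
    · intro j _; rfl
    · have : wt (Finset.univ.filter fun j : Fin N => (j : ℕ) < n) t1 = n := by
        unfold wt
        rw [Finset.filter_filter]
        simp only [ht1, decide_eq_true_eq, and_self]
        rw [Fin.card_filter_val_lt]
        omega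
      rw [this]
      linarith
  -- weights and signs
  set ω : Str N → ℝ := fun τ => ∏ j : Fin N,
    if (j : ℕ) < n then 1 else if τ j = false then 2 else 0 with hω
  set sg : Str N → ℝ := fun τ => ∏ j : Fin N,
    if (j : ℕ) < n ∧ τ j = true then -1 else 1 with hsg
  have hsum : ∑ y, (star (prodOp (c y)) * O * prodOp (c y)) t1 t0 =
      ∑ τ, ((ω τ * sg τ : ℝ) : ℂ) * O τ τ := by
    have k : ∀ τ τ' : Str N, ∑ y, star (prodOp (c y)) t1 τ * prodOp (c y) τ' t0 =
        if τ = τ' then ((ω τ * sg τ : ℝ) : ℂ) else 0 := by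
      intro τ τ'
      simp only [star_prodOp, prodOp_apply, ← Finset.prod_mul_distrib]
      rw [← Fintype.prod_sum (fun (j : Fin N) (s : Bool) =>
        star (if (j : ℕ) < n then mH s else 1) (t1 j) (τ j) *
          (if (j : ℕ) < n then mH s else 1) (τ' j) (t0 j))]
      have h2 := star_mul_al
      rw [Complex.star_def] at h2
      by_cases h : τ = τ'
      · subst h
        rw [if_pos rfl, hω, hsg]
        simp only
        rw [← Finset.prod_mul_distrib, Complex.ofReal_prod]
        apply Finset.prod_congr rfl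
        intro j _
        by_cases hj : (j : ℕ) < n
        · cases τ j <;> simp [hj, ht1, ht0, mH, Matrix.star_apply, h2] <;> norm_num
        · have h3 : (1 : M2) false (t0 j) = 1 := rfl
          cases τ j <;> simp [hj, ht1, ht0, h3]
      · rw [if_neg h]
        obtain ⟨j, hj'⟩ := Function.ne_iff.mp h
        apply Finset.prod_eq_zero (Finset.mem_univ j)
        revert hj'
        by_cases hj : (j : ℕ) < n
        · cases τ j <;> cases τ' j <;> simp [hj, ht1, ht0, mH, Matrix.star_apply, h2]
        · cases τ j <;> cases τ' j <;> simp [hj, ht1, ht0]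
    simp only [Matrix.mul_apply, Finset.sum_mul]
    rw [Finset.sum_comm]
    apply Finset.sum_congr rfl
    intro τ' _
    rw [Finset.sum_comm]
    have : ∀ τ, ∑ y, star (prodOp (c y)) t1 τ * O τ τ' * prodOp (c y) τ' t0 =
        (if τ = τ' then ((ω τ * sg τ : ℝ) : ℂ) else 0) * O τ τ' := by
      intro τ
      rw [← k, Finset.sum_mul]
      apply Finset.sum_congr rfl
      intro y _
      ring
    simp only [this, ite_mul, zero_mul, Finset.sum_ite_eq', Finset.mem_univ, if_true]
  have hω0 : ∀ τ, 0 ≤ ω τ := fun τ => Finset.prod_nonneg fun j _ => by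
    split_ifs <;> norm_num
  have hωsum : ∑ τ, ω τ = 2 ^ N := by
    rw [hω, ← Fintype.prod_sum (fun (j : Fin N) (s : Bool) =>
      if (j : ℕ) < n then (1 : ℝ) else if s = false then 2 else 0)]
    rw [Finset.prod_congr rfl (g := fun _ => (2 : ℝ))]
    · simp
    · intro j _
      by_cases hj : (j : ℕ) < n <;> simp [hj]
  have hterm : ∀ τ, ω τ * (2 * ε) ≤ -(((ω τ * sg τ : ℝ) : ℂ) * O τ τ).re := by
    intro τ
    by_cases h0 : ω τ = 0
    · simp [h0]
    · set x : Fin n → Bool := fun i => τ (Fin.castLE hn i) with hx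
      have hτ : τ = inputString n x := by
        funext j
        unfold inputString
        split_ifs with hj
        · rfl
        · have := Finset.prod_ne_zero_iff.1 h0 j (Finset.mem_univ j)
          simpa [hj] using this
      have hsgn : sg τ = if parity x = true then -1 else 1 := by
        rw [parity, ← neg_one_pow_bodd, hsg]
        simp only
        rw [← Fintype.prod_of_injective (Fin.castLE hn) (Fin.castLE_injective hn)
          (fun i => if x i = true then (-1 : ℝ) else 1)]
        · rw [Finset.prod_ite]; simp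
        · intro j hj
          rw [if_neg]
          rintro ⟨h1, -⟩
          exact hj ⟨⟨j, h1⟩, rfl⟩
        · intro i
          simp [hx]
      have h1 := hs x
      rw [← hτ] at h1
      rw [hO, diag_entry hU o (parity x) τ, ← Complex.ofReal_mul, Complex.ofReal_re, hsgn]
      have h2 := hω0 τ
      split_ifs <;> nlinarith
  have hfin : (2 : ℝ) ^ N * (2 * ε) ≤ 2 ^ N * δ := by
    calc (2 : ℝ) ^ N * (2 * ε) = ∑ τ, ω τ * (2 * ε) := by rw [← Finset.sum_mul, hωsum]
      _ ≤ ∑ τ, -(((ω τ * sg τ : ℝ) : ℂ) * O τ τ).re := Finset.sum_le_sum fun τ _ => hterm τ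
      _ = -(∑ y, (star (prodOp (c y)) * O * prodOp (c y)) t1 t0).re := by
          rw [hsum, Complex.re_sum, Finset.sum_neg_distrib]
      _ ≤ ‖∑ y, (star (prodOp (c y)) * O * prodOp (c y)) t1 t0‖ :=
          (neg_le_abs _).trans (Complex.abs_re_le_norm _)
      _ ≤ ∑ _y : Str N, δ := norm_sum_le_of_le _ fun y _ => hent y
      _ = 2 ^ N * δ := by simp
  exact le_of_mul_le_mul_left hfin (by positivity)

theorem main (d c : ℕ) (ε : ℝ) (hε : 0 < ε) :
    ∃ n₀ : ℕ, ∀ n ≥ n₀, ∀ N : ℕ, n ≤ N → N ≤ n ^ c →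
      ∀ C : List (List (Gate N)), CircuitWF C → C.length ≤ d →
        ∀ o : Fin N, ∃ x : Fin n → Bool,
          outcomeProb o (parity x) (runCircuit C (basisState (inputString n x))) < 1 / 2 + ε := by
  obtain ⟨N0, h0⟩ := hh_all d (2 * (c + 1)) (by omega)
  obtain ⟨e, he⟩ := exists_nat_gt (1 / (2 * ε))
  have hexp : Real.exp (-(e : ℝ)) < 2 * ε := by
    rw [Real.exp_neg, inv_lt_comm₀ (Real.exp_pos _) (by positivity), ← one_div]
    have := Real.add_one_le_exp (e : ℝ)
    linarith
  refine ⟨N0 + (e + 3) ^ 2, fun n hn N hnN hNc C hC hd o => ?_⟩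
  by_contra hcon
  push Not at hcon
  obtain ⟨Λ, hΛ1, hΛ2, hH⟩ := h0 N (by omega)
  obtain ⟨U, hU, hrun⟩ := circuit_link C hC
  have hU' := hU.mono hd
  have hn1 : (e + 3) ^ 2 ≤ n := by omega
  have hn0 : 1 ≤ n := le_trans (Nat.one_le_pow _ _ (by omega)) hn1
  have hΛn : Λ ^ 2 ≤ n := by
    apply le_of_pow_le_pow_left₀ (n := c + 1) (by omega) (Nat.zero_le _)
    rw [← pow_mul]
    exact hΛ2.trans (hNc.trans (Nat.pow_le_pow_right hn0 (by omega)))
  have hT : Λ * (e + 2) + 1 ≤ n := by
    rcases le_total Λ (e + 3) with h | h <;> nlinarith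
  have hT' : (Λ : ℝ) * ((1 : ℕ) + e + 1) ≤ n - 1 := by
    have : (Λ : ℝ) * (e + 2) + 1 ≤ n := by exact_mod_cast hT
    push_cast
    linarith
  have := parity_bound hnN hU.unitary o hε.le (δ := Real.exp (-(e : ℝ)))
    (fun x => by rw [← hrun]; exact hcon x) (fun V hV => by
      refine (norm_G_mul_mono _ hT' _ _).trans ?_
      exact hH _ (hU'.mul_right hV) _ 1 _
        ⟨{o}, by simp, loc_RG (by simp), norm_unitary_le (RG_unitary _)⟩ e (Nat.cast_nonneg _))
  linarith

end Crest.Agent.R344
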