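import Crest.Agent.R344.Deg

/-! The approximating polynomial for the zero-weight indicator. -/

set_option autoImplicit false

open scoped Matrix.Norms.L2Operator
open Matrix

namespace Crest.Agent.R344

variable {N : ℕ}

theorem two_le_exp_one : (2 : ℝ) ≤ Real.exp 1 := by
  have := Real.add_one_le_exp (1 : ℝ)
  linarith

theorem two_pow_le_exp (m : ℕ) : (2 : ℝ) ^ m ≤ Real.exp m := by
  rw [← mul_one (m : ℝ), Real.exp_nat_mul]
  exact pow_le_pow_left₀ (by norm_num) two_le_exp_one m

theorem exists_poly (L r s : ℕ) (hN : (N : ℝ) + 1 ≤ Real.exp L) (hL : 1 ≤ L) (hr : 1 ≤ r)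
    (hs : 1 ≤ s) :
    ∃ p : ℕ → ℝ, p 0 = 1 ∧
      (∀ h : ℕ, 1 ≤ h → h ≤ r * (s ^ 2 + 1) → h ≤ N → |p h| ≤ Real.exp (-r)) ∧
      (∀ h : ℕ, r * (s ^ 2 + 1) < h → h ≤ N → |p h| ≤ Real.exp (L * r + 12 * L * h / s)) ∧
      ∀ Q : Finset (Fin N), Deg (fun y => p (wt Q y)) (3 * L * r * s)
        (Real.exp (4 * L * (3 * L * r * s : ℕ))) := by
  have hr' : (1 : ℝ) ≤ r := by exact_mod_cast hr
  have hs' : (1 : ℝ) ≤ s := by exact_mod_cast hs
  have hL' : (1 : ℝ) ≤ L := by exact_mod_cast hL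
  have hs2 : (1 : ℝ) ≤ (s : ℝ) ^ 2 := one_le_pow₀ hs'
  set x : ℕ → ℝ := fun h => (1 + 2 / (s : ℝ) ^ 2) + (-(2 / (r * (s : ℝ) ^ 2))) * h with hx
  set c0 : ℝ := cheb s (1 + 2 / (s : ℝ) ^ 2) with hc0
  have hc3 : 3 ≤ c0 := by
    have := (cheb_growth (δ := 2 / (s : ℝ) ^ 2) (by positivity) s).1
    have e : (s : ℝ) ^ 2 * (2 / (s : ℝ) ^ 2) = 2 := by field_simp
    rw [e] at this
    linarith
  set z : ℕ → ℝ := fun h => ∏ i ∈ Finset.range r, (1 + (-(1 / ((i : ℝ) + 1))) * h) with hz
  set w : ℕ := 2 * L * r with hw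
  have hzb : ∀ h : ℕ, h ≤ N → |z h| ≤ Real.exp (L * r) := by
    intro h hh
    have hh' : (h : ℝ) ≤ N := by exact_mod_cast hh
    rw [hz]
    simp only
    rw [Finset.abs_prod, mul_comm (L : ℝ), Real.exp_nat_mul]
    refine (Finset.prod_le_prod (g := fun _ => Real.exp L) (fun _ _ => abs_nonneg _) ?_).trans
      (by rw [Finset.prod_const, Finset.card_range])
    intro i _
    have h1 : 0 ≤ 1 / ((i : ℝ) + 1) := by positivity
    have h2 : 1 / ((i : ℝ) + 1) ≤ 1 := by
      rw [div_le_one (by positivity)]; linarith [Nat.cast_nonneg (α := ℝ) i]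
    have h3 : (0 : ℝ) ≤ h := Nat.cast_nonneg _
    have h4 : 1 / ((i : ℝ) + 1) * h ≤ h := mul_le_of_le_one_left h3 h2
    have h5 : 0 ≤ 1 / ((i : ℝ) + 1) * h := mul_nonneg h1 h3
    rw [abs_le]
    constructor <;> linarith
  refine ⟨fun h => z h * (c0⁻¹ * cheb s (x h)) ^ w, ?_, ?_, ?_, ?_⟩
  · have : x 0 = 1 + 2 / (s : ℝ) ^ 2 := by simp [hx]
    simp only [this, ← hc0]
    rw [inv_mul_cancel₀ (by linarith)]
    simp [hz]
  · intro h h1 h2 h3
    by_cases hhr : h ≤ r
    · have : z h = 0 := by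
        apply Finset.prod_eq_zero (i := h - 1) (Finset.mem_range.2 (by omega))
        have : ((h - 1 : ℕ) : ℝ) + 1 = h := by
          rw [Nat.cast_sub h1]; simp
        rw [this]
        have : (h : ℝ) ≠ 0 := by positivity
        field_simp
        ring
      simp only [this, zero_mul, abs_zero]
      positivity
    · have hhr' : (r : ℝ) ≤ h := by exact_mod_cast (by omega : r ≤ h)
      have h2' : (h : ℝ) ≤ r * ((s : ℝ) ^ 2 + 1) := by exact_mod_cast h2
      have e : x h = 1 - 2 * (((h : ℝ) - r) / (r * (s : ℝ) ^ 2)) := by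
        simp only [hx]; field_simp; ring
      have a1 : 0 ≤ ((h : ℝ) - r) / (r * (s : ℝ) ^ 2) := div_nonneg (by linarith) (by positivity)
      have a2 : ((h : ℝ) - r) / (r * (s : ℝ) ^ 2) ≤ 1 := by
        rw [div_le_one (by positivity)]; linarith
      have hc : |cheb s (x h)| ≤ 1 := abs_cheb_le_one s (by linarith) (by linarith)
      have hq : |c0⁻¹ * cheb s (x h)| ≤ Real.exp (-1) := by
        rw [abs_mul, abs_of_pos (inv_pos.2 (by linarith : 0 < c0)), Real.exp_neg]
        have : c0⁻¹ ≤ (Real.exp 1)⁻¹ :=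
          inv_anti₀ (Real.exp_pos _) (by linarith [Real.exp_one_lt_d9])
        have h0 : 0 ≤ c0⁻¹ := by positivity
        nlinarith
      rw [abs_mul, abs_pow]
      calc _ ≤ Real.exp (L * r) * Real.exp (-1) ^ w :=
            mul_le_mul (hzb h h3) (pow_le_pow_left₀ (abs_nonneg _) hq w) (by positivity)
              (by positivity)
        _ ≤ Real.exp (-r) := by
            rw [← Real.exp_nat_mul, ← Real.exp_add]
            apply Real.exp_le_exp.2
            rw [hw]; push_cast
            nlinarith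
  · intro h h2 h3
    have h2' : r * ((s : ℝ) ^ 2 + 1) < h := by exact_mod_cast h2
    have hrs : (0 : ℝ) < r * (s : ℝ) ^ 2 := by positivity
    have e : x h = -(2 * (((h : ℝ) - r) / (r * (s : ℝ) ^ 2)) - 1) := by
      simp only [hx]; field_simp; ring
    have a1 : 1 ≤ ((h : ℝ) - r) / (r * (s : ℝ) ^ 2) := by
      rw [le_div_iff₀ hrs]; linarith
    have a2 : ((h : ℝ) - r) / (r * (s : ℝ) ^ 2) ≤ h / (r * (s : ℝ) ^ 2) :=
      div_le_div_of_nonneg_right (by linarith) hrs.le
    have ax : |x h| = 2 * (((h : ℝ) - r) / (r * (s : ℝ) ^ 2)) - 1 := by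
      rw [e, abs_neg, abs_of_nonneg (by linarith)]
    have hc : |cheb s (x h)| ≤ (3 * |x h|) ^ s := abs_cheb_le (by rw [ax]; linarith) s
    have h3x : 3 * |x h| ≤ Real.exp (6 * (h / (r * (s : ℝ) ^ 2))) := by
      have := Real.add_one_le_exp (6 * (h / (r * (s : ℝ) ^ 2)))
      rw [ax]; linarith
    have hq : |c0⁻¹ * cheb s (x h)| ≤ Real.exp (6 * (h / (r * (s : ℝ) ^ 2))) ^ s := by
      rw [abs_mul, abs_of_pos (inv_pos.2 (by linarith : 0 < c0))]
      have h0 : c0⁻¹ ≤ 1 := inv_le_one_of_one_le₀ (by linarith)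
      refine (mul_le_of_le_one_left (abs_nonneg _) h0).trans (hc.trans ?_)
      exact pow_le_pow_left₀ (by positivity) h3x s
    rw [abs_mul, abs_pow]
    calc _ ≤ Real.exp (L * r) * (Real.exp (6 * (h / (r * (s : ℝ) ^ 2))) ^ s) ^ w :=
          mul_le_mul (hzb h h3) (pow_le_pow_left₀ (abs_nonneg _) hq w) (by positivity)
            (by positivity)
      _ = _ := by
          rw [← Real.exp_nat_mul, ← Real.exp_nat_mul, ← Real.exp_add]
          congr 1
          rw [hw]; push_cast
          field_simp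
          ring
  · intro Q
    have hN0 : (0 : ℝ) ≤ N := Nat.cast_nonneg _
    have h8 : 8 * ((N : ℝ) + 1) ≤ Real.exp (4 * L) := by
      have h1 := two_pow_le_exp 3
      have h2 : Real.exp (3 : ℕ) * Real.exp L ≤ Real.exp (4 * L) := by
        rw [← Real.exp_add]; apply Real.exp_le_exp.2; push_cast; linarith
      have h3 : (8 : ℝ) * ((N : ℝ) + 1) ≤ Real.exp (3 : ℕ) * Real.exp L :=
        mul_le_mul (by linarith) hN (by positivity) (by positivity)
      linarith
    have dx : Deg (fun y => x (wt Q y)) 1 (3 + 4 * N) := by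
      have := ((Deg.const (N := N) (1 + 2 / (s : ℝ) ^ 2)).mono zero_le_one le_rfl).add
        ((deg_wt Q).const_mul (-(2 / (r * (s : ℝ) ^ 2))))
      refine this.mono le_rfl ?_
      have b1 : 2 / (s : ℝ) ^ 2 ≤ 2 := div_le_self (by norm_num) hs2
      have b2 : 2 / (r * (s : ℝ) ^ 2) ≤ 2 := div_le_self (by norm_num) (by nlinarith)
      rw [abs_neg, abs_of_nonneg (by positivity), abs_of_nonneg (by positivity)]
      nlinarith
    have dq : Deg (fun y => c0⁻¹ * cheb s (x (wt Q y))) s (Real.exp (4 * L) ^ s) := by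
      refine ((dx.cheb s).const_mul c0⁻¹).mono le_rfl ?_
      rw [abs_of_pos (inv_pos.2 (by linarith : 0 < c0))]
      have h0 : c0⁻¹ ≤ 1 := inv_le_one_of_one_le₀ (by linarith)
      refine (mul_le_of_le_one_left (by positivity) h0).trans ?_
      exact pow_le_pow_left₀ (by positivity) (by linarith) s
    have dz : Deg (fun y => z (wt Q y)) (r * 1) (Real.exp (4 * L) ^ r) := by
      have := Deg.prod (N := N) (Finset.range r)
        (f := fun i y => 1 + (-(1 / ((i : ℝ) + 1))) * (wt Q y : ℝ)) (D := 1)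
        (C := Real.exp (4 * L)) (fun i _ => by
          have := ((Deg.const (N := N) 1).mono zero_le_one le_rfl).add
            ((deg_wt Q).const_mul (-(1 / ((i : ℝ) + 1))))
          refine this.mono le_rfl ?_
          have h2 : 1 / ((i : ℝ) + 1) ≤ 1 := by
            rw [div_le_one (by positivity)]; linarith [Nat.cast_nonneg (α := ℝ) i]
          rw [abs_neg, abs_one, abs_of_nonneg (by positivity)]
          nlinarith)
      rwa [Finset.card_range] at this
    have hD : r * 1 + w * s ≤ 3 * L * r * s := by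
      rw [hw]
      have : r * 1 ≤ L * r * s := by
        calc r * 1 = 1 * r * 1 := by ring
          _ ≤ L * r * s := by gcongr
      nlinarith
    refine (dz.mul (dq.pow w)).mono hD ?_
    rw [← pow_mul, ← pow_add, ← Real.exp_nat_mul]
    apply Real.exp_le_exp.2
    have : ((r + s * w : ℕ) : ℝ) ≤ (3 * L * r * s : ℕ) := by
      exact_mod_cast (by nlinarith : r + s * w ≤ 3 * L * r * s)
    rw [mul_comm]
    exact mul_le_mul_of_nonneg_left this (by positivity)

end Crest.Agent.R344
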